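import Vale.Agent.P106.U.H683.PhiQ
import Vale.Agent.P106.U.H466.Defs
import Vale.Agent.P106.H25.SatKN

/-!
# P106 / U / MIC : the steps of the micro part over the cells, ONE form for all regimes (helper679, list of helper833)

`C : Cell.Pth Ω τ`, cap `b`, step `j`, cell of the step `k = j + 1`, later step `i`.

* `Th C b i` : letter of the later step in every regime (`(T i, digits of the slope)` in the phi regime of `i`, `(T i, 0)`
  otherwise); `th_phi`, `mi_kap`, `hc_kap`.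
* **`SatN P C b j i s`** : `s ≤ H(A (j+1) b i | A j b i, cell (j+1) b, Th b i)` (hypothesis `hs` of `H833.Wnd`).
* `SatN.zero` : a step which is not counted; `SatN.of_T` : the form given `T i` only, kappa regime.
* `cT, cF, cY` : collisions given `Dp C k b`; `cL, cW` : collinearity of three late points given `cell k b` (466's numbers).
* `PSatPhi` (683), `PSatKap`, `PSatKapW` (466 + 25), `PSatTwo` (two caps : 958, 416, 470).
* The `(V, Z)`-step is `H357.satVR` (landed), literally hypothesis `hV` of `H118.rise_cell`.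
-/

set_option autoImplicit false

namespace Vale.Agent.P106.U.MIC

open Finset Vale.Agent.P127 Vale.Agent.P127.Stk
open Vale.Agent.P106.U.Cell
open Vale.Agent.P127.U.Mic (colp)
open Vale.Agent.P127.U.CellD (q2 rd Nb)
open Vale.Agent.P106.U.H683 (Dp Reg slR)
open Vale.Agent.P106.U.H466 (TT Ctx)

/-! ### letters -/

section letters

variable {Ω τ : Type}

open Classical in
/-- letter of the later step `i` at the cap `b` -/
noncomputable def Th (C : Pth Ω τ) (b i : ℕ) (ω : Ω) : τ × ℤ :=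
  (C.T i ω, if C.rf i ≤ b + C.rk i then fl1 (C.rf i) (slR C i b ω + C.o 4) else 0)

theorem th_phi {C : Pth Ω τ} {b i : ℕ} (h : C.rf i ≤ b + C.rk i) : Th C b i = H683.Th C i b := by
  funext ω
  unfold Th H683.Th
  rw [if_pos h]

theorem th_kap {C : Pth Ω τ} {b i : ℕ} (h : ¬ C.rf i ≤ b + C.rk i) : Th C b i = fun ω => (C.T i ω, 0) := by
  funext ω
  unfold Th
  rw [if_neg h]

variable [Fintype Ω]

theorem fn_Th (P : Law Ω) (C : Pth Ω τ) (b i : ℕ) : Fn P (C.T i) (Th C b i) :=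
  fun _ _ _ _ e => congrArg Prod.fst e

theorem fn_Th' (P : Law Ω) {C : Pth Ω τ} {b i : ℕ} (h : ¬ C.rf i ≤ b + C.rk i) : Fn P (Th C b i) (C.T i) := by
  rw [th_kap h]
  exact fun _ _ _ _ e => Prod.ext e rfl

/-- **saturation at the step `j`** of the path, cap `b`, read at the later step `i` -/
def SatN (P : Law Ω) (C : Pth Ω τ) (b j i : ℕ) (s : ℝ) : Prop :=
  s ≤ hc P (C.A (j + 1) b i) (fun ω => (C.A j b i ω, (C.cell (j + 1) b ω, Th C b i ω)))

theorem SatN.mono {P : Law Ω} {C : Pth Ω τ} {b j i : ℕ} {s s' : ℝ} (h : SatN P C b j i s) (hs : s' ≤ s) :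
    SatN P C b j i s' := hs.trans h

/-- a step which is not counted -/
theorem SatN.zero (P : Law Ω) (C : Pth Ω τ) (b j i : ℕ) {s : ℝ} (hs : s ≤ 0) : SatN P C b j i s :=
  hs.trans (hc_nonneg P _ _)

/-- kappa regime: the letter is `T i` -/
theorem SatN.of_T {P : Law Ω} {C : Pth Ω τ} {b j i : ℕ} {s : ℝ} (h : ¬ C.rf i ≤ b + C.rk i)
    (hs : s ≤ hc P (C.A (j + 1) b i) (fun ω => (C.A j b i ω, (C.cell (j + 1) b ω, C.T i ω)))) : SatN P C b j i s := by
  refine hs.trans (hc_mono_right P _ fun ω ω' p p' e => ?_)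
  simp only [Prod.mk.injEq] at e ⊢
  exact ⟨e.1, e.2.1, fn_Th' P h ω ω' p p' e.2.2⟩

/-- full weight of the step `j` at the cap `b`, in bits: `3 (a (j+1) - a j) + (R (j+1) b - R j b)` -/
def wt (C : Pth Ω τ) (b j : ℕ) : ℝ := 3 * ((C.a (j + 1) : ℝ) - C.a j) + ((C.R (j + 1) b : ℝ) - C.R j b)

/-! ### errors -/

/-- collision of the time -/
noncomputable def cT (P : Law Ω) (C : Pth Ω τ) (b k g : ℕ) : ℝ := colp P (fun ω => fl1 (C.a k + g) (C.t ω)) (Dp C k b)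

/-- collision of the own slope -/
noncomputable def cF (P : Law Ω) (C : Pth Ω τ) (b k g : ℕ) : ℝ :=
  colp P (fun ω => fl1 (C.rf k + g) (slR C k b ω)) (Dp C k b)

/-- collision of the direction -/
noncomputable def cY (P : Law Ω) (C : Pth Ω τ) (b k g : ℕ) : ℝ := colp P (fun ω => fl1 (b + g) (C.l ω).v) (Dp C k b)

/-- coordinates (time, kappa) of the copy `a` relative to `ω`, frame `f`, units of the cell `k` -/
noncomputable def uS (C : Pth Ω τ) (k i : ℕ) (ω a : Ω) : ℝ := 2 ^ C.a k * (C.s i a - C.s i ω)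

noncomputable def uT (C : Pth Ω τ) (f k i : ℕ) (ω a : Ω) : ℝ := 2 ^ C.rk k * (TT C f i a - TT C f i ω)

/-- probability that the three points (own, two copies given the cell) are collinear up to `q2 g` -/
noncomputable def cL (P : Law Ω) (C : Pth Ω τ) (b f k i g : ℕ) : ℝ :=
  H25.av3 P (C.cell k b) (fun ω a a' => Law.ind (¬ q2 g ≤
    |uS C k i ω a * uT C f k i ω a' - uS C k i ω a' * uT C f k i ω a|))

/-- weak form: mass of the `ω` for which two copies span `q2 g` with probability `< q2 g` only -/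
noncomputable def cW (P : Law Ω) (C : Pth Ω τ) (b f k i g : ℕ) : ℝ :=
  P.ex fun ω => Law.ind ((P.cond (C.cell k b) (C.cell k b ω)).ex (fun a =>
    (P.cond (C.cell k b) (C.cell k b ω)).ex fun a' => Law.ind (q2 g ≤
      |uS C k i ω a * uT C f k i ω a' - uS C k i ω a' * uT C f k i ω a|)) < q2 g)

end letters

/-! ### the N-steps -/

/-- the step `j` advances the time, or the thickness at the cap `b`, or nothing -/
def Adv {Ω τ : Type} (C : Pth Ω τ) (m b j : ℕ) : Prop :=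
  (C.a (j + 1) = C.a j + m ∧ C.R (j + 1) b = C.R j b) ∨ (C.a (j + 1) = C.a j ∧ C.R (j + 1) b = C.R j b + m)

/-- **deep phi regime** (helper683: `satQ` + the stepwise form) -/
def PSatPhi : Prop := ∃ c : ℕ, ∀ {Ω τ : Type} [Fintype Ω] (P : Law Ω) (C : Pth Ω τ) (K : ℝ) (c0 m g p b b' j i : ℕ)
    (ι₁ ι₂ : ℝ), (∀ ω, 0 < P.w ω → C.Ok K ω) → Reg C (j + 1) i b → Reg C j i b → Adv C m b j →
    b + 8 * C.μ ≤ b' → C.μ ≤ p → b + p ≤ b' → 2 * K ≤ 2 ^ c0 → 1 ≤ m → m ≤ g → c * (g + c0 + 1) ≤ C.μ →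
    mi P (fun ω => fl1 (b + p) (C.l ω).v) (C.cell i b) (fun ω => (Dp C (j + 1) b ω, Th C b i ω)) ≤ ι₁ →
    mi P (Th C b i) (C.cell (j + 1) b') (Dp C (j + 1) b) ≤ ι₂ →
    SatN P C b j i (wt C b j * Real.log 2 - (c * (c0 + 1) + c * m * (cT P C b (j + 1) g + cF P C b (j + 1) g +
      cY P C b (j + 1) g) + (2 : ℝ) ^ (c * (g + c0 + 1)) * (Real.sqrt ι₁ + Real.sqrt ι₂)))

/-- **deep kappa regime, strong form** (helper466, helper25): `f` = frame, `js` = intermediate step -/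
def PSatKap : Prop := ∃ c : ℕ, ∀ {Ω τ : Type} [Fintype Ω] (P : Law Ω) (C : Pth Ω τ) (K : ℝ) (c0 m g p b b' f j js i : ℕ)
    (ι₁ ι₂ : ℝ), Ctx C (fun ω => 0 < P.w ω) K f (j + 1) js i b b' p → Adv C m b j → 2 * K ≤ 2 ^ c0 → 1 ≤ m → m ≤ g →
    c * (g + c0 + 1) ≤ C.μ → C.μ ≤ p → 8 * C.μ ≤ C.rk j + b →
    mi P (fun ω => fl1 (b + p) (C.l ω).v) (C.cell i b) (fun ω => (C.cell (j + 1) b ω, C.T i ω)) ≤ ι₁ →
    mi P (C.T i) (C.cell (j + 1) b') (C.cell (j + 1) b) ≤ ι₂ →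
    SatN P C b j i (wt C b j * Real.log 2 - (c * (c0 + 1) + c * m * (cT P C b (j + 1) g + cL P C b f (j + 1) i (2 * g) +
      cY P C b (j + 1) g) + (2 : ℝ) ^ (c * (g + c0 + 1)) * (Real.sqrt ι₁ + Real.sqrt ι₂)))

/-- **deep kappa regime, weak form** (helper466, helper25) -/
def PSatKapW : Prop := ∃ c : ℕ, ∀ {Ω τ : Type} [Fintype Ω] (P : Law Ω) (C : Pth Ω τ) (K : ℝ) (c0 m g p b b' f j js i : ℕ)
    (ι₁ ι₂ : ℝ), Ctx C (fun ω => 0 < P.w ω) K f (j + 1) js i b b' p → Adv C m b j → 2 * K ≤ 2 ^ c0 → 1 ≤ m → m ≤ g →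
    c * (g + c0 + 1) ≤ C.μ → C.μ ≤ p → 8 * C.μ ≤ C.rk j + b →
    mi P (fun ω => fl1 (b + p) (C.l ω).v) (C.cell i b) (fun ω => (C.cell (j + 1) b ω, C.T i ω)) ≤ ι₁ →
    mi P (C.T i) (C.cell (j + 1) b') (C.cell (j + 1) b) ≤ ι₂ →
    SatN P C b j i (wt C b j * Real.log 2 - (c * (c0 + 1) + c * m * (cT P C b (j + 1) g + cW P C b f (j + 1) i (2 * g) +
      cY P C b (j + 1) g) + (2 : ℝ) ^ (c * (g + c0 + 1)) * (Real.sqrt ι₁ + Real.sqrt ι₂)))

open Classical in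
/-- the slope `al` is known up to `ρ` with probability `≥ 1 - c''` given `Z` -/
def Kno {Ω : Type} [Fintype Ω] (P : Law Ω) (al : Ω → ℝ) (ρ c'' : ℝ) {ζ : Type} (Z : Ω → ζ) (ω : Ω) : Prop :=
  ∃ v : ℝ, (1 - c'') * P.pr Z (Z ω) ≤ prE P (fun ω' => Z ω' = Z ω ∧ |al ω' - v| ≤ ρ)

/-- **two caps** (helper958, helper416, helper470), type (ii): base `b1`, lower cap `b0`, upper cap `b`; `al` = slope of the line
of the ray side, to `rk (j+1) + m` digits: for every value of `W'` no value has mass `≥ 1 - c'`; `δ` = mass of the cells of the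
lower cap in which it is not known.  `ι₃` = information of the directions at the base cap. -/
def PSatTwo : Prop := ∃ c : ℕ, ∀ {Ω τ ω' : Type} [Fintype Ω] (P : Law Ω) (C : Pth Ω τ) (W' : Ω → ω') (al : Ω → ℝ) (K c' : ℝ)
    (c0 m g p b1 b0 b b' f j js i : ℕ) (ι₁ ι₂ ι₃ δ : ℝ), Ctx C (fun ω => 0 < P.w ω) K f (j + 1) js i b b' p →
    Adv C m b j → 2 * K ≤ 2 ^ c0 → 1 ≤ m → m ≤ g → 1 ≤ g * c' → c' ≤ 1 → c * (g + c0 + 1) ≤ C.μ → C.μ ≤ p →
    8 * C.μ ≤ b1 → b1 + 8 * C.μ ≤ b0 → b1 + 2 * (b0 - b1) + c * (g + C.μ) ≤ b →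
    -- the cells at the caps `b1, b0` are functions of the last label and of the direction
    (∀ x ω, 0 < P.w ω → prE P (fun ω' => W' ω' = W' ω ∧ |al ω' - x| * q2 (C.a (j + 1)) ≤ q2 (C.rk (j + 1) + m)) ≤
      (1 - c') * P.pr W' (W' ω)) →
    Fn P (fun ω => (C.T (j + 1) ω, fl1 b1 (C.l ω).v)) W' →
    -- the line of the ray side
    (∀ ω ω', 0 < P.w ω → 0 < P.w ω' → C.l ω = C.l ω' → C.T (j + 1) ω = C.T (j + 1) ω' → al ω = al ω' →
      |uT C f (j + 1) i ω ω' + al ω * q2 (C.a (j + 1)) * 2 ^ C.rk (j + 1) * uS C (j + 1) i ω ω'| ≤ q2 (g + m)) →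
    P.ex (fun ω => Law.ind (¬ Kno P al (2 ^ C.a (j + 1) * q2 (C.rk (j + 1) + m + 2)) (c' / 16) (C.cell (j + 1) b0) ω)) ≤ δ →
    mi P (fun ω => fl1 (b + p) (C.l ω).v) (C.cell i b) (fun ω => (C.cell (j + 1) b ω, C.T i ω)) ≤ ι₁ →
    mi P (C.T i) (C.cell (j + 1) b') (C.cell (j + 1) b) ≤ ι₂ →
    mi P (fun ω => fl1 (b + p) (C.l ω).v) (fun ω => (C.cell i b' ω, C.T i ω)) (fun ω => (C.cell (j + 1) b1 ω, C.T i ω)) ≤ ι₃ →
    SatN P C b j i (wt C b j * Real.log 2 - (c * (c0 + 1) + c * m / c' * (cT P C b (j + 1) g + δ + cY P C b (j + 1) g) +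
      (2 : ℝ) ^ (c * (g + c0 + 1)) * (Real.sqrt ι₁ + Real.sqrt ι₂ + Real.sqrt ι₃)))

end Vale.Agent.P106.U.MIC
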