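import Vale.Agent.P106.U.S5.Run
import Vale.Agent.P106.U.H101.Low
import Vale.Agent.P106.U.H823.Cmp
import Vale.Agent.P106.U.H652.Par

/-!
# P106 / U / MIC : skeleton of `PSat RA` (helper679)

* `ix R i0 j`, `az`, `rz`, `nz` : the compressed path (823) of the record at its cap `b = m b1`, from the first good state `i0` on.
* `WordOk` : the word (independent of the scale), hypotheses of 652's `sum_par`.
* `ScaleOk` : everything at one scale `(M0, M1, L1, L2, KK)` : potential `psi`, errors, prices, windows, heavy intervals, and the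
  end `psi N - psi 0 ≤ I(l ; cell n | cell i0) + small`.
* **`PMic RA`** : word and scales exist (all rows of the note), **`PEnd RA`** : from the information to `SatOut` (label, prices).
* `pSat_of` : `PMic → PEnd → PSat RA` (order of all constants).
-/

set_option autoImplicit false

namespace Vale.Agent.P106.U.MIC

open Finset Vale.Agent.P127 Vale.Agent.P127.Stk Vale.Agent.P127.U Vale.Agent.P106.W Vale.Agent.P106.K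
open Vale.Agent.P106.U.S3 (Run)
open Vale.Agent.P106.U.S5
open Vale.Agent.P106.U.H833 (aN RN)
open Vale.Agent.P106.U.H118 (Sdat CS full)
open Vale.Agent.P106.U.H101 (lc)
open Vale.Agent.P106.U.H823

/-! ### the path of the composition -/

section path

variable {Ω : Type} [Fintype Ω] {τ υ : Type} (R : Run Ω τ υ)

/-- the cap, in digits -/
def bc : ℕ := R.m * R.b1

/-- index in the record of the state `j` of the composition -/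
def ix (i0 j : ℕ) : ℕ := Cmp.idx R R.b1 (i0 + j)

/-- number of steps -/
def nz (i0 : ℕ) : ℕ := Cmp.Nc R R.b1 - i0

/-- levels in blocks -/
def az (i0 j : ℕ) : ℕ := aN R (ix R i0 j)

/-- thickness in blocks -/
def rz (i0 j : ℕ) : ℕ := RN R R.b1 (ix R i0 j)

theorem ix_mono (i0 : ℕ) : Monotone (ix R i0) := fun _ _ h => Cmp.idx_mono (Nat.add_le_add_left h i0)

end path

/-! ### word and scale -/

/-- **the word** : the hypotheses of `sum_par` before the scale; `mm = m log 2` -/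
structure WordOk (K e1 h mm : ℝ) (J0 : ℕ) (n : ℕ) (gd : ℕ → Prop) (a r : ℕ → ℕ) (E : Finset ℕ) : Prop where
  n0 : 0 < n
  sd : Sdat n gd a r
  g0 : gd 0
  hF : ∀ j, j + J0 ≤ n → r j + 1 ≤ r (j + J0)
  nK : mm * n ≤ K * h
  rK : mm * ((r n : ℝ) - r 0) ≤ K * h
  hE : ∀ i < n, a (i + 1) = a i + 1 → ¬ gd i → i ∈ E
  cE : mm * E.card ≤ e1 * h

/-- **one scale** : the hypotheses of `sum_par` at the scale, `eps` = accuracy of `sum_par` -/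
structure ScaleOk (M0 M1 L1 L2 KK : ℕ) (CJ CH cw c1 δh e3 eps h mm : ℝ) (n : ℕ) (gd : ℕ → Prop) (a r : ℕ → ℕ)
    (psi err q u : ℕ → ℝ) (T : Finset ℕ) (cj ch δ : ℝ) : Prop where
  cj0 : 0 ≤ cj
  ch0 : 0 ≤ ch
  δ0 : 0 ≤ δ
  cj1 : cj ≤ mm * CJ
  ch1 : ch ≤ mm * CH
  δ1 : δ ≤ δh
  e0 : ∀ j, 0 ≤ err j
  u0 : ∀ z, 0 ≤ u z
  uT : ∀ z, z ∉ T → u z = 0
  se : ∑ j ∈ range n, err j ≤ eps / 16 * h
  sq : ∑ j ∈ range n, q j ≤ eps / 16 * h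
  su : ∑ z ∈ T, u z ≤ e3 * h
  light : ∀ i k i1, i ≤ k → k ≤ i + L1 → k ≤ i1 → i1 ≤ n → i1 ≤ i + L2 → a k + KK ≤ a i1 → r k + KK ≤ r i1 →
    ∑ j ∈ CS M0 n gd a r i k, (full mm a r j - err j) - c1 * ((k : ℝ) - i) - cj - ∑ j ∈ Ico i k, q j ≤ psi k - psi i
  triv : ∀ i k, i ≤ k → k ≤ n → - c1 - ∑ j ∈ Ico i k, q j ≤ psi k - psi i
  heavy : ∀ i i1, gd i → i < i1 → i1 ≤ n → r i + M1 < r i1 →
    mm * (1 - δ) * ((r i1 : ℝ) - r i) - mm * cw * ((a i1 : ℝ) - a i) - ∑ z ∈ Icc (a i) (a i + (r i1 - r i)), u z - ch -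
      ∑ j ∈ Ico i i1, q j ≤ psi i1 - psi i

/-- **[MIC]** the rows together.  `K = 2 K1 + 4`, `eps = η / 4`. -/
def PMic : Prop :=
  ∃ (cw : ℝ) (CJ CH : ℕ → ℝ), 0 ≤ cw ∧ (∀ x, 0 ≤ CJ x) ∧ (∀ x, 0 ≤ CH x) ∧
  ∀ b : Bs, b.Ok → ∀ η : ℝ, 0 < η → ∀ (p : ℕ) (M : ℕ → ℕ) (δh e1 e3 : ℝ), 0 < p → Monotone M →
  (∀ s, 768 * (2 * b.K1 + 4) / η ≤ M s) → 0 < δh → 0 < e1 → 0 < e3 →
  ∃ θ0 : ℝ, 0 < θ0 ∧ ∀ θ : ℝ, 0 < θ → θ ≤ θ0 → ∃ δ0 : ℝ, 0 < δ0 ∧ ∀ δ1 : ℝ, 0 < δ1 → δ1 ≤ δ0 →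
  ∀ σ : Cst, σ = ⟨b, θ, δ1⟩ → σ.Ok → ∃ ε0 : ℝ, 0 < ε0 ∧ ∀ ε : ℝ, 0 < ε → ε ≤ ε0 → ∀ ρ : Thr, ρ.Ok →
  ∃ (KK : ℕ → ℕ) (J0 : ℕ), ∀ L1 L2 : ℕ → ℕ, (∀ s, 0 < L1 s ∧ L1 s ≤ L2 s) → ∃ c1 : ℝ, 0 ≤ c1 ∧
  ∀ g : Gv, g.Ok σ ε → ∃ m0 : ℕ, ∀ m : ℕ, m0 ≤ m → ∃ B0 : ℕ, ∀ B : ℕ, B0 ≤ B → ∃ h0 : ℕ,
    ∀ (Ω : Type) [Fintype Ω] (Q : Law Ω) (l : Ω → Ry) (t : Ω → ℝ) (L h q r0 Rn : ℕ) (W : Ω → Cbx),
      h0 ≤ h → NEx 100 σ.lam σ.N g.k g.β ε Q l t (fun _ => ()) L h q W →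
      ∀ (τ υ : Type) (R : Run Ω τ υ) (pn : Run.Num) (g' gU e κ₀ : ℝ) (a1 r1 : ℕ),
      RunOk σ ε ρ m B Q l t L h q r0 Rn W R pn g' gU e κ₀ a1 r1 →
      ∃ (i0 : ℕ) (gd : ℕ → Prop) (E : Finset ℕ), ((R.C.a (ix R i0 0) : ℕ) : ℝ) ≤ η / 40 * h ∧
        i0 ≤ Cmp.Nc R R.b1 ∧
        WordOk (2 * b.K1 + 4) e1 h (m * Real.log 2) J0 (nz R i0) gd (az R i0) (rz R i0) E ∧
        ∀ s < p, ∃ (μ : ℕ) (o : Fin 7 → ℝ) (psi err qq u : ℕ → ℝ) (T : Finset ℕ) (cj ch δ : ℝ),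
          (μ ≤ R.C.μ ∧ ∀ k, 0 < o k ∧ o k ≤ 1) ∧
          ScaleOk (M s) (M (s + 1)) (L1 s) (L2 s) (KK (M s)) (CJ (M s)) (CH (M s)) cw c1 δh e3 (η / 4) h
            (m * Real.log 2) (nz R i0) gd (az R i0) (rz R i0) psi err qq u T cj ch δ ∧
          psi (nz R i0) - psi 0 - η / 16 * h ≤
            mi R.Q R.ry ((lc R.C μ o).cell (ix R i0 (nz R i0)) (bc R)) ((lc R.C μ o).cell (ix R i0 0) (bc R))

/-- **[END]** from the information to the form of `SatOut` -/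
def PEnd : Prop :=
  ∀ b : Bs, b.Ok → ∀ η : ℝ, 0 < η → ∃ θ0 : ℝ, 0 < θ0 ∧ ∀ θ : ℝ, 0 < θ → θ ≤ θ0 → ∃ δ0 : ℝ, 0 < δ0 ∧ ∀ δ1 : ℝ, 0 < δ1 →
  δ1 ≤ δ0 → ∀ σ : Cst, σ = ⟨b, θ, δ1⟩ → σ.Ok → ∃ ε0 : ℝ, 0 < ε0 ∧ ∀ ε : ℝ, 0 < ε → ε ≤ ε0 → ∀ ρ : Thr, ρ.Ok →
  ∀ g : Gv, g.Ok σ ε → ∃ cA : ℝ, 1 ≤ cA ∧ ∃ m0 : ℕ, ∀ m : ℕ, m0 ≤ m → ∃ B0 : ℕ, ∀ B : ℕ, B0 ≤ B → ∃ h0 : ℕ,
    ∀ (Ω : Type) [Fintype Ω] (Q : Law Ω) (l : Ω → Ry) (t : Ω → ℝ) (L h q r0 Rn : ℕ) (W : Ω → Cbx),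
      h0 ≤ h → NEx 100 σ.lam σ.N g.k g.β ε Q l t (fun _ => ()) L h q W →
      ∀ (τ υ : Type) (R : Run Ω τ υ) (pn : Run.Num) (g' gU e κ₀ : ℝ) (a1 r1 : ℕ),
      RunOk σ ε ρ m B Q l t L h q r0 Rn W R pn g' gU e κ₀ a1 r1 →
      ∀ i0 : ℕ, ((R.C.a (ix R i0 0) : ℕ) : ℝ) ≤ η / 40 * h → i0 ≤ Cmp.Nc R R.b1 → ∀ (μ : ℕ) (o : Fin 7 → ℝ), μ ≤ R.C.μ →
        (∀ k, 0 < o k ∧ o k ≤ 1) →
        3 * (m * Real.log 2) * ((az R i0 (nz R i0) : ℝ) - az R i0 0) +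
            m * Real.log 2 * ((rz R i0 (nz R i0) : ℝ) - rz R i0 0) - η / 2 * h ≤
          mi R.Q R.ry ((lc R.C μ o).cell (ix R i0 (nz R i0)) (bc R)) ((lc R.C μ o).cell (ix R i0 0) (bc R)) →
        SatOut η cA Q l t L h q Rn W

/-! ### the order of the constants -/

/-- **`PSat` from the word with all scales and the end** -/
theorem pSat_of (h1 : PMic) (h2 : PEnd) : PSat RA := by
  obtain ⟨cw, CJ, CH, hcw, hCJ, hCH, H1⟩ := h1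
  intro b hb η hη
  have hK : (0 : ℝ) < 2 * b.K1 + 4 := by
    have := hb.K10
    linarith
  obtain ⟨p, M, δh, e1, e3, hp, hM, hδh, he1, he3, hMl, S⟩ :=
    H652.sum_parB hK (show (0 : ℝ) < η / 4 by positivity) hcw CJ CH hCJ hCH
  obtain ⟨θa, hθa, A⟩ := H1 b hb η hη p M δh e1 e3 hp hM (fun s => by
    refine le_trans (le_of_eq ?_) (hMl s)
    field_simp
    ring) hδh he1 he3
  obtain ⟨θb, hθb, E⟩ := h2 b hb η hη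
  refine ⟨min θa θb, lt_min hθa hθb, fun θ hθ hθ' => ?_⟩
  obtain ⟨δa, hδa, A⟩ := A θ hθ (hθ'.trans (min_le_left _ _))
  obtain ⟨δb, hδb, E⟩ := E θ hθ (hθ'.trans (min_le_right _ _))
  refine ⟨min δa δb, lt_min hδa hδb, fun δ1 hδ1 hδ1' σ hσ hσo => ?_⟩
  obtain ⟨εa, hεa, A⟩ := A δ1 hδ1 (hδ1'.trans (min_le_left _ _)) σ hσ hσo
  obtain ⟨εb, hεb, E⟩ := E δ1 hδ1 (hδ1'.trans (min_le_right _ _)) σ hσ hσo
  refine ⟨min εa εb, lt_min hεa hεb, fun ε hε hε' ρ hρ g hg => ?_⟩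
  obtain ⟨KK, J0, A⟩ := A ε hε (hε'.trans (min_le_left _ _)) ρ hρ
  obtain ⟨L1, L2, hL, S⟩ := S KK J0
  obtain ⟨c1, hc1, A⟩ := A L1 L2 hL
  obtain ⟨ma, A⟩ := A g hg
  obtain ⟨mc, hmc, S⟩ := S c1 hc1
  obtain ⟨cA, hcA, mb, E⟩ := E ε hε (hε'.trans (min_le_right _ _)) ρ hρ g hg
  have hl2 : 0 < Real.log 2 := Real.log_pos (by norm_num)
  refine ⟨cA, hcA, max (max ma mb) ⌈mc / Real.log 2⌉₊, fun m hm => ?_⟩
  have hm1 : ma ≤ m := ((le_max_left _ _).trans (le_max_left _ _)).trans hm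
  have hm2 : mb ≤ m := ((le_max_right _ _).trans (le_max_left _ _)).trans hm
  have hm3 : mc ≤ m * Real.log 2 := by
    have h3 : mc / Real.log 2 ≤ m := (Nat.le_ceil _).trans (by exact_mod_cast (le_max_right _ _).trans hm)
    rwa [div_le_iff₀ hl2] at h3
  obtain ⟨Ba, A⟩ := A m hm1
  obtain ⟨Bb, E⟩ := E m hm2
  obtain ⟨hc, hhc, S⟩ := S (m * Real.log 2) hm3
  refine ⟨max Ba Bb, fun B hB => ?_⟩
  obtain ⟨ha, A⟩ := A B ((le_max_left _ _).trans hB)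
  obtain ⟨hb', E⟩ := E B ((le_max_right _ _).trans hB)
  refine ⟨max (max ha hb') ⌈hc⌉₊, ?_⟩
  intro Ω _ Q l t L h q r0 Rn W _ hh hne hR
  have hh1 : ha ≤ h := ((le_max_left _ _).trans (le_max_left _ _)).trans hh
  have hh2 : hb' ≤ h := ((le_max_right _ _).trans (le_max_left _ _)).trans hh
  have hh3 : hc ≤ h := (Nat.le_ceil _).trans (by exact_mod_cast (le_max_right _ _).trans hh)
  obtain ⟨τ, υ, R, pn, g', gU, e, κ₀, a1, r1, hR⟩ := hR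
  obtain ⟨i0, gd, E0, ha0, hi0, hw, hs⟩ := A Ω Q l t L h q r0 Rn W hh1 hne τ υ R pn g' gU e κ₀ a1 r1 hR
  obtain ⟨s, hsp, S⟩ := S h hh3 (nz R i0) gd (az R i0) (rz R i0) hw.n0 hw.sd hw.g0 hw.hF hw.nK hw.rK E0 hw.hE hw.cE
  obtain ⟨μ, o, psi, err, qq, u, T, cj, ch, δ, ho, X, hpsi⟩ := hs s hsp
  have key := S psi err qq u cj ch δ X.cj0 X.ch0 X.δ0 X.cj1 X.ch1 X.δ1 X.e0 X.u0 T X.uT X.se X.sq X.su X.light X.triv X.heavy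
  refine E Ω Q l t L h q r0 Rn W hh2 hne τ υ R pn g' gU e κ₀ a1 r1 hR i0 ha0 hi0 μ o ho.1 ho.2 ?_
  have hh0 : (0 : ℝ) ≤ η * h := by positivity
  linarith

end Vale.Agent.P106.U.MIC
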