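import Vale.Agent.P106.U.MIC.PSat

/-!
# P106 / U / MIC : `PMic` split into the word and one scale (helper679)

* `eG ε ρ` : accuracy of the good time steps; `gdR` : the good states of the compressed path.
* **`PWord`** : [WORD].
* **`PScale`** : ONE scale `x = M s ≥ 768 (2 K1 + 4) / η`, windows `L1 ≤ L2`.
* the shell `PWord → PScale → PMic` : helper315.
-/

set_option autoImplicit false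

namespace Vale.Agent.P106.U.MIC

open Finset Vale.Agent.P127 Vale.Agent.P127.Stk Vale.Agent.P127.U Vale.Agent.P106.W Vale.Agent.P106.K
open Vale.Agent.P106.U.S3 (Run)
open Vale.Agent.P106.U.S5
open Vale.Agent.P106.U.H833 (aN RN)
open Vale.Agent.P106.U.H101 (lc)
open Vale.Agent.P106.U.H823

/-- accuracy of the good time steps -/
noncomputable def eG (ε : ℝ) (ρ : Thr) : ℝ := ε * ρ.c' / ρ.K ^ 8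

/-- the good states -/
def gdR {Ω : Type} [Fintype Ω] {τ υ : Type} (R : Run Ω τ υ) (pn : Run.Num) (e : ℝ) (i0 j : ℕ) : Prop :=
  R.Good pn e (bc R) (ix R i0 j)

/-- **[WORD]** -/
def PWord : Prop :=
  ∀ b : Bs, b.Ok → ∀ η : ℝ, 0 < η → ∃ θ0 : ℝ, 0 < θ0 ∧ ∀ θ : ℝ, 0 < θ → θ ≤ θ0 → ∃ δ0 : ℝ, 0 < δ0 ∧ ∀ δ1 : ℝ, 0 < δ1 →
  δ1 ≤ δ0 → ∀ σ : Cst, σ = ⟨b, θ, δ1⟩ → σ.Ok → ∃ ε0 : ℝ, 0 < ε0 ∧ ∀ ε : ℝ, 0 < ε → ε ≤ ε0 → ∀ ρ : Thr, ρ.Ok →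
  ∀ g : Gv, g.Ok σ ε → ∃ m0 : ℕ, ∀ m : ℕ, m0 ≤ m → ∃ B0 : ℕ, ∀ B : ℕ, B0 ≤ B → ∃ h0 : ℕ,
    ∀ (Ω : Type) [Fintype Ω] (Q : Law Ω) (l : Ω → Ry) (t : Ω → ℝ) (L h q r0 Rn : ℕ) (W : Ω → Cbx),
      h0 ≤ h → NEx 100 σ.lam σ.N g.k g.β ε Q l t (fun _ => ()) L h q W →
      ∀ (τ υ : Type) (R : Run Ω τ υ) (pn : Run.Num) (g' gU e κ₀ : ℝ) (a1 r1 : ℕ),
      RunOk σ ε ρ m B Q l t L h q r0 Rn W R pn g' gU e κ₀ a1 r1 →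
      ∃ (i0 : ℕ) (E : Finset ℕ), ((R.C.a (ix R i0 0) : ℕ) : ℝ) ≤ η / 40 * h ∧ i0 ≤ Cmp.Nc R R.b1 ∧
        WordOk (2 * b.K1 + 4) (20 * ε) h (m * Real.log 2) ρ.J (nz R i0) (gdR R pn (eG ε ρ) i0) (az R i0) (rz R i0) E

/-- **[SCALE]** one scale `x`; `M1` = next scale (only in the premise of the heavy intervals) -/
def PScale : Prop :=
  ∃ (cw : ℝ) (CJ CH : ℕ → ℝ), 0 ≤ cw ∧ (∀ x, 0 ≤ CJ x) ∧ (∀ x, 0 ≤ CH x) ∧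
  ∀ b : Bs, b.Ok → ∀ η : ℝ, 0 < η → ∀ (x : ℕ) (δh e3 : ℝ), 768 * (2 * b.K1 + 4) / η ≤ x → 0 < δh → 0 < e3 →
  ∃ θ0 : ℝ, 0 < θ0 ∧ ∀ θ : ℝ, 0 < θ → θ ≤ θ0 → ∃ δ0 : ℝ, 0 < δ0 ∧ ∀ δ1 : ℝ, 0 < δ1 → δ1 ≤ δ0 →
  ∀ σ : Cst, σ = ⟨b, θ, δ1⟩ → σ.Ok → ∃ ε0 : ℝ, 0 < ε0 ∧ ∀ ε : ℝ, 0 < ε → ε ≤ ε0 → ∀ ρ : Thr, ρ.Ok →
  ∃ KK : ℕ, ∀ L1 L2 : ℕ, 0 < L1 → L1 ≤ L2 → ∃ c1 : ℝ, 0 ≤ c1 ∧
  ∀ g : Gv, g.Ok σ ε → ∃ m0 : ℕ, ∀ m : ℕ, m0 ≤ m → ∃ B0 : ℕ, ∀ B : ℕ, B0 ≤ B → ∃ h0 : ℕ,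
    ∀ (Ω : Type) [Fintype Ω] (Q : Law Ω) (l : Ω → Ry) (t : Ω → ℝ) (L h q r0 Rn : ℕ) (W : Ω → Cbx),
      h0 ≤ h → NEx 100 σ.lam σ.N g.k g.β ε Q l t (fun _ => ()) L h q W →
      ∀ (τ υ : Type) (R : Run Ω τ υ) (pn : Run.Num) (g' gU e κ₀ : ℝ) (a1 r1 : ℕ),
      RunOk σ ε ρ m B Q l t L h q r0 Rn W R pn g' gU e κ₀ a1 r1 →
      ∀ (i0 : ℕ) (E : Finset ℕ), ((R.C.a (ix R i0 0) : ℕ) : ℝ) ≤ η / 40 * h → i0 ≤ Cmp.Nc R R.b1 →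
      WordOk (2 * b.K1 + 4) (20 * ε) h (m * Real.log 2) ρ.J (nz R i0) (gdR R pn (eG ε ρ) i0) (az R i0) (rz R i0) E →
      ∀ M1 : ℕ, ∃ (μ : ℕ) (o : Fin 7 → ℝ) (psi err qq u : ℕ → ℝ) (T : Finset ℕ) (cj ch δ : ℝ),
        (μ ≤ R.C.μ ∧ ∀ k, 0 < o k ∧ o k ≤ 1) ∧
        ScaleOk x M1 L1 L2 KK (CJ x) (CH x) cw c1 δh e3 (η / 4) h (m * Real.log 2) (nz R i0)
          (gdR R pn (eG ε ρ) i0) (az R i0) (rz R i0) psi err qq u T cj ch δ ∧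
        psi (nz R i0) - psi 0 - η / 16 * h ≤
          mi R.Q R.ry ((lc R.C μ o).cell (ix R i0 (nz R i0)) (bc R)) ((lc R.C μ o).cell (ix R i0 0) (bc R))

end Vale.Agent.P106.U.MIC
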