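import Vale.Agent.P106.U.MIC.Scale
import Vale.Agent.P106.U.MIC.Rows
import Vale.Agent.P106.U.H833.WinS

/-!
# P106 / U / MIC : literal frame of the rows of one scale (helper679)

* `cμ`, `xS`, `gS`, `μS`, `MuS`, `KS` : the numbers of the scale `x`.
* **`St`** : the whole situation at a scale (law, record, word, sums over the caps at the margin `μS x m` and the constant `KS ρ`).
* `Pre`, `Suf` : the quantifiers up to the thresholds, after the lookahead.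
* The rows: `RowT` (levels, trivial pieces, end), `RowKd` (kinds), `RowL c` (light windows of kind `c = 0, 2`), `RowK` (kind 1),
  `RowH` (heavy intervals), `RowQ` (price).
-/

set_option autoImplicit false

namespace Vale.Agent.P106.U.MIC

open Finset Vale.Agent.P127 Vale.Agent.P127.Stk Vale.Agent.P127.U Vale.Agent.P106.W Vale.Agent.P106.K
open Vale.Agent.P106.U.Cell (Pth)
open Vale.Agent.P106.U.S3 (Run)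
open Vale.Agent.P106.U.S5
open Vale.Agent.P106.U.H833 (aN RN tdg)
open Vale.Agent.P106.U.H101 (lc low)
open Vale.Agent.P106.U.H823
open Vale.Agent.P106.U.H118 (Sdat CS full Zw)
open Vale.Agent.P106.U.H495 (Lvl)
open Vale.Agent.P106.U.H931 (nx lvi)

/-! ### numbers of a scale -/

/-- constant of the N-step of the phi regime -/
noncomputable def cφ : ℕ := Classical.choose H833.exists_phiC

theorem cφ_spec : H833.PhiC cφ := Classical.choose_spec H833.exists_phiC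

/-- constant of the N-step of the old levels -/
noncomputable def cN : ℕ := max 800 cφ

/-- margin in units of `(x + 12) m` -/
noncomputable def cμ : ℕ := 8000 * cN

/-- the scale -/
def xS (x : ℕ) : ℕ := x + 12

/-- digits of the direction -/
def gS (x m : ℕ) : ℕ := 8 * xS x * m

/-- margin -/
noncomputable def μS (x m : ℕ) : ℕ := cμ * xS x * m

/-- `8 μ` in blocks -/
noncomputable def MuS (x : ℕ) : ℕ := 8 * cμ * xS x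

/-- constant of the sums -/
noncomputable def KS (ρ : Thr) : ℝ := (100 * ρ.K) ^ 20

/-! ### the situation -/

/-- **the situation at a scale** -/
structure St (η : ℝ) (x : ℕ) (σ : Cst) (ε : ℝ) (ρ : Thr) (g : Gv) (m B h : ℕ) where
  Ω : Type
  inst : Fintype Ω
  Q : Law Ω
  l : Ω → Ry
  t : Ω → ℝ
  L : ℕ
  q : ℕ
  r0 : ℕ
  Rn : ℕ
  W : Ω → Cbx
  nex : NEx 100 σ.lam σ.N g.k g.β ε Q l t (fun _ => ()) L h q W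
  τ : Type
  υ : Type
  R : Run Ω τ υ
  pn : Run.Num
  g' : ℝ
  gU : ℝ
  e : ℝ
  κ₀ : ℝ
  a1 : ℕ
  r1 : ℕ
  run : RunOk σ ε ρ m B Q l t L h q r0 Rn W R pn g' gU e κ₀ a1 r1
  i0 : ℕ
  E : Finset ℕ
  ha0 : ((R.C.a (ix R i0 0) : ℕ) : ℝ) ≤ η / 40 * h
  hi0 : i0 ≤ Cmp.Nc R R.b1
  word : WordOk (2 * σ.K1 + 4) (20 * ε) h (m * Real.log 2) ρ.J (nz R i0) (gdR R pn (eG ε ρ) i0) (az R i0) (rz R i0) E
  π : Type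
  bS : ℕ
  bV : ℕ
  F : S3.Pf R π
  Vs : Finset ℕ
  Xs : Finset ℕ
  f2 : S3.F2 R pn ρ.K B bS bV F Vs Xs
  o : Fin 7 → ℝ
  o' : ℕ → ℝ
  f2o : S3.F2o R pn B bS bV F Vs Xs (μS x m) (KS ρ) o o'

attribute [instance] St.inst

namespace St

variable {η : ℝ} {x : ℕ} {σ : Cst} {ε : ℝ} {ρ : Thr} {g : Gv} {m B h : ℕ}

/-- number of steps of the compressed path -/
def N (s : St η x σ ε ρ g m B h) : ℕ := nz s.R s.i0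

/-- index in the record -/
def f (s : St η x σ ε ρ g m B h) : ℕ → ℕ := ix s.R s.i0

theorem hf (s : St η x σ ε ρ g m B h) : Monotone s.f := ix_mono s.R s.i0

/-- levels in blocks -/
def a (s : St η x σ ε ρ g m B h) : ℕ → ℕ := az s.R s.i0

/-- thickness in blocks -/
def r (s : St η x σ ε ρ g m B h) : ℕ → ℕ := rz s.R s.i0

/-- good steps -/
def gd (s : St η x σ ε ρ g m B h) : ℕ → Prop := gdR s.R s.pn (eG ε ρ) s.i0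

/-- one block -/
noncomputable def mm (s : St η x σ ε ρ g m B h) : ℝ := (s.R.m : ℝ) * Real.log 2

/-- the run with the low margin -/
noncomputable def Rl (s : St η x σ ε ρ g m B h) : Run s.Ω s.τ s.υ := low s.R (μS x m) s.o

/-- the a-step of a level -/
noncomputable def lm (s : St η x σ ε ρ g m B h) (z : ℕ) : ℕ := nx s.N s.a (lvi s.N s.a z)

/-- the potential -/
noncomputable def psi (s : St η x σ ε ρ g m B h) : ℕ → ℝ :=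
  H833.psi s.Rl.Q s.Rl.ry (fun j => Zw s.Rl (s.f j)) (fun j => (s.Rl.C.re s.f s.hf).cell j (s.Rl.m * s.Rl.b1))

/-- the price -/
noncomputable def qc (s : St η x σ ε ρ g m B h) : ℕ → ℝ :=
  H833.qc s.Rl.Q s.Rl.ry (fun j => Zw s.Rl (s.f j)) (tdg (s.Rl.C.re s.f s.hf))

open Classical in
/-- **kind of a level** : 0 old, 1 young in the kappa regime, 2 young in the deep phi regime -/
noncomputable def kd (s : St η x σ ε ρ g m B h) (z : ℕ) : Fin 3 :=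
  if z ∈ s.Vs then
    (if ∃ k, 1 ≤ k ∧ k ≤ s.R.n ∧ S3.lv s.R k = z ∧ s.R.m * s.R.b1 + s.R.C.rk k < s.R.C.rf k then 1 else 2)
  else 0

/-- light windows of kind `0` or `2` -/
def Win (s : St η x σ ε ρ g m B h) (c : Fin 3) (L1 L2 Lk : ℕ) (c1 cj : ℝ) (err : ℕ → ℝ) (Sw : Finset ℕ) : Prop :=
  ∀ i k i1, i ≤ k → k ≤ i + L1 → k ≤ i1 → i1 ≤ s.N → i1 ≤ i + L2 → s.a k + (Lk + 1) ≤ s.a i1 →
    s.r k + (Lk + 1) ≤ s.r i1 → (∀ z, s.a i ≤ z → z ≤ s.a k + Lk → z ∉ Sw ∧ s.kd z = c) →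
    ∑ j ∈ CS x s.N s.gd s.a s.r i k, (full s.mm s.a s.r j - err j) - c1 * ((k : ℝ) - i) - cj -
      ∑ j ∈ Ico i k, s.qc j ≤ s.psi k - s.psi i

/-- light windows of kind `1` -/
def WinK (s : St η x σ ε ρ g m B h) (L1 L2 Lk : ℕ) (c1 cj : ℝ) (err : ℕ → ℝ) (Sw : Finset ℕ) : Prop :=
  ∀ i k i1, i ≤ k → k ≤ i + L1 → k ≤ i1 → i1 ≤ s.N → i1 ≤ i + L2 → s.a k + (Lk + 1) ≤ s.a i1 →
    s.r k + (Lk + 1) ≤ s.r i1 → (∀ z, s.a i ≤ z → z ≤ s.a k + Lk → z ∉ Sw ∧ s.kd z = 1) → s.a i < s.a k →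
    ∑ z ∈ range (s.a k - 1 - s.a i), (4 * s.mm - err (s.lm (s.a i + z))) - c1 * ((s.a k - 1 - s.a i : ℕ) : ℝ) - cj -
      ∑ j ∈ Ico (s.lm (s.a i)) (s.lm (s.a k - 1)), s.qc j ≤ s.psi (s.lm (s.a k - 1)) - s.psi (s.lm (s.a i))

end St

/-! ### the quantifiers -/

/-- the quantifiers up to the thresholds -/
def Pre (Φ : Bs → ℝ → ℕ → ℝ → ℝ → Cst → ℝ → Thr → Prop) : Prop :=
  ∀ b : Bs, b.Ok → ∀ η : ℝ, 0 < η → ∀ (x : ℕ) (δh e3 : ℝ), 768 * (2 * b.K1 + 4) / η ≤ x → 0 < δh → 0 < e3 →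
  ∃ θ0 : ℝ, 0 < θ0 ∧ ∀ θ : ℝ, 0 < θ → θ ≤ θ0 → ∃ δ0 : ℝ, 0 < δ0 ∧ ∀ δ1 : ℝ, 0 < δ1 → δ1 ≤ δ0 →
  ∀ σ : Cst, σ = ⟨b, θ, δ1⟩ → σ.Ok → ∃ ε0 : ℝ, 0 < ε0 ∧ ∀ ε : ℝ, 0 < ε → ε ≤ ε0 → ∀ ρ : Thr, ρ.Ok →
    Φ b η x δh e3 σ ε ρ

/-- the quantifiers after the lookahead -/
def Suf (σ : Cst) (ε : ℝ) (Ψ : Gv → ℕ → ℕ → ℕ → Prop) : Prop :=
  ∀ g : Gv, g.Ok σ ε → ∃ m0 : ℕ, ∀ m : ℕ, m0 ≤ m → ∃ B0 : ℕ, ∀ B : ℕ, B0 ≤ B → ∃ h0 : ℕ, ∀ h : ℕ, h0 ≤ h → Ψ g m B h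

theorem Pre.and {Φ Φ' : Bs → ℝ → ℕ → ℝ → ℝ → Cst → ℝ → Thr → Prop} (h : Pre Φ) (h' : Pre Φ') :
    Pre fun b η x δh e3 σ ε ρ => Φ b η x δh e3 σ ε ρ ∧ Φ' b η x δh e3 σ ε ρ := by
  intro b hb η hη x δh e3 hx hδh he3
  obtain ⟨θ0, hθ0, H⟩ := h b hb η hη x δh e3 hx hδh he3
  obtain ⟨θ1, hθ1, H'⟩ := h' b hb η hη x δh e3 hx hδh he3
  refine ⟨min θ0 θ1, lt_min hθ0 hθ1, fun θ hθ hθ' => ?_⟩
  obtain ⟨δ0, hδ0, H⟩ := H θ hθ (hθ'.trans (min_le_left _ _))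
  obtain ⟨δ0', hδ0', H'⟩ := H' θ hθ (hθ'.trans (min_le_right _ _))
  refine ⟨min δ0 δ0', lt_min hδ0 hδ0', fun δ1 hδ hδ' σ hσ hσo => ?_⟩
  obtain ⟨ε0, hε0, H⟩ := H δ1 hδ (hδ'.trans (min_le_left _ _)) σ hσ hσo
  obtain ⟨ε1, hε1, H'⟩ := H' δ1 hδ (hδ'.trans (min_le_right _ _)) σ hσ hσo
  exact ⟨min ε0 ε1, lt_min hε0 hε1, fun ε hε hε' ρ hρ =>
    ⟨H ε hε (hε'.trans (min_le_left _ _)) ρ hρ, H' ε hε (hε'.trans (min_le_right _ _)) ρ hρ⟩⟩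

theorem Pre.mono {Φ Φ' : Bs → ℝ → ℕ → ℝ → ℝ → Cst → ℝ → Thr → Prop} (h : Pre Φ)
    (hm : ∀ (b : Bs) (η : ℝ) (x : ℕ) (δh e3 : ℝ) (σ : Cst) (ε : ℝ) (ρ : Thr), b.Ok → 0 < η →
      768 * (2 * b.K1 + 4) / η ≤ x → 0 < δh → 0 < e3 →
      σ.toBs = b → σ.Ok → 0 < ε → ρ.Ok → Φ b η x δh e3 σ ε ρ → Φ' b η x δh e3 σ ε ρ) : Pre Φ' := by
  intro b hb η hη x δh e3 hx hδh he3
  obtain ⟨θ0, hθ0, H⟩ := h b hb η hη x δh e3 hx hδh he3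
  refine ⟨θ0, hθ0, fun θ hθ hθ' => ?_⟩
  obtain ⟨δ0, hδ0, H⟩ := H θ hθ hθ'
  refine ⟨δ0, hδ0, fun δ1 hδ hδ' σ hσ hσo => ?_⟩
  obtain ⟨ε0, hε0, H⟩ := H δ1 hδ hδ' σ hσ hσo
  exact ⟨ε0, hε0, fun ε hε hε' ρ hρ => hm b η x δh e3 σ ε ρ hb hη hx hδh he3 (by rw [hσ]) hσo hε hρ (H ε hε hε' ρ hρ)⟩

theorem Suf.and {σ : Cst} {ε : ℝ} {Ψ Ψ' : Gv → ℕ → ℕ → ℕ → Prop} (h : Suf σ ε Ψ) (h' : Suf σ ε Ψ') :
    Suf σ ε fun g m B h => Ψ g m B h ∧ Ψ' g m B h := by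
  intro g hg
  obtain ⟨m0, H⟩ := h g hg
  obtain ⟨m1, H'⟩ := h' g hg
  refine ⟨max m0 m1, fun m hm => ?_⟩
  obtain ⟨B0, H⟩ := H m ((le_max_left _ _).trans hm)
  obtain ⟨B1, H'⟩ := H' m ((le_max_right _ _).trans hm)
  refine ⟨max B0 B1, fun B hB => ?_⟩
  obtain ⟨h0, H⟩ := H B ((le_max_left _ _).trans hB)
  obtain ⟨h1, H'⟩ := H' B ((le_max_right _ _).trans hB)
  exact ⟨max h0 h1, fun h hh => ⟨H h ((le_max_left _ _).trans hh), H' h ((le_max_right _ _).trans hh)⟩⟩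

theorem Suf.mono {σ : Cst} {ε : ℝ} {Ψ Ψ' : Gv → ℕ → ℕ → ℕ → Prop} (h : Suf σ ε Ψ)
    (hm : ∀ g m B h, g.Ok σ ε → Ψ g m B h → Ψ' g m B h) : Suf σ ε Ψ' := by
  intro g hg
  obtain ⟨m0, H⟩ := h g hg
  refine ⟨m0, fun m hm' => ?_⟩
  obtain ⟨B0, H⟩ := H m hm'
  refine ⟨B0, fun B hB => ?_⟩
  obtain ⟨h0, H⟩ := H B hB
  exact ⟨h0, fun h hh => hm g m B h hg (H h hh)⟩

/-- numbers: from `Ev3` of helper652 -/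
theorem Suf.of_ev3 {σ : Cst} {ε : ℝ} {Ψ : Gv → ℕ → ℕ → ℕ → Prop}
    (h : ∀ g : Gv, g.Ok σ ε → ∃ m0 : ℕ, ∀ m ≥ m0, ∃ B0 : ℕ, ∀ B ≥ B0, ∃ h0 : ℕ, ∀ h ≥ h0, Ψ g m B h) : Suf σ ε Ψ := by
  intro g hg
  obtain ⟨m0, H⟩ := h g hg
  refine ⟨m0, fun m hm' => ?_⟩
  obtain ⟨B0, H⟩ := H m hm'
  refine ⟨B0, fun B hB => ?_⟩
  obtain ⟨h0, H⟩ := H B hB
  exact ⟨h0, fun h hh => H h hh⟩

/-! ### the rows -/

/-- **[T]** levels, trivial pieces, end of the potential -/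
def RowT : Prop :=
  Pre fun _ η x _ _ σ ε ρ => ∃ c1 : ℝ, 0 ≤ c1 ∧ Suf σ ε fun g m B h => ∀ s : St η x σ ε ρ g m B h,
    Lvl s.N s.a s.lm ∧ (∀ i k, i ≤ k → k ≤ s.N → - c1 - ∑ j ∈ Ico i k, s.qc j ≤ s.psi k - s.psi i) ∧
    s.psi s.N - s.psi 0 - η / 16 * h ≤
      mi s.R.Q s.R.ry ((lc s.R.C (μS x m) s.o).cell (s.f s.N) (bc s.R)) ((lc s.R.C (μS x m) s.o).cell (s.f 0) (bc s.R))

/-- **[KD]** the kinds -/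
def RowKd : Prop :=
  Pre fun _ η x _ _ σ ε ρ => ∀ κ : ℝ, 0 < κ → Suf σ ε fun g m B h => ∀ s : St η x σ ε ρ g m B h,
    ∃ Sw : Finset ℕ, (m : ℝ) * Sw.card ≤ κ * h ∧
      (∀ z, s.a 0 ≤ z → z < s.a s.N → s.kd z ≠ s.kd (z + 1) → z ∈ Sw) ∧
      (∀ z, s.a 0 ≤ z → z + 1 < s.a s.N → s.kd z = 1 → z ∉ Sw → s.r (s.lm (z + 1)) = s.r (s.lm z) + 1)

/-- **[L]** the light windows of kind `c` (`c = 0, 2`) -/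
def RowL (c : Fin 3) : Prop :=
  ∃ CJ : ℕ → ℝ, (∀ x, 0 ≤ CJ x) ∧ Pre fun _ η x _ _ σ ε ρ => ∃ Lk0 : ℕ, ∀ Lk : ℕ, Lk0 ≤ Lk →
    ∀ L1 L2 : ℕ, 0 < L1 → L1 ≤ L2 → ∀ κ : ℝ, 0 < κ → ∃ c1 : ℝ, 0 ≤ c1 ∧ Suf σ ε fun g m B h =>
      ∀ s : St η x σ ε ρ g m B h, ∃ (err : ℕ → ℝ) (Sw : Finset ℕ) (cj : ℝ), 0 ≤ cj ∧ cj ≤ s.mm * CJ x ∧ (∀ j, 0 ≤ err j) ∧
        ∑ j ∈ range s.N, err j ≤ η / 400 * h ∧ (m : ℝ) * Sw.card ≤ κ * h ∧ s.Win c L1 L2 Lk c1 cj err Sw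

/-- **[K]** the light windows of kind `1` -/
def RowK : Prop :=
  ∃ CJ : ℕ → ℝ, (∀ x, 0 ≤ CJ x) ∧ Pre fun _ η x _ _ σ ε ρ => ∃ Lk0 : ℕ, ∀ Lk : ℕ, Lk0 ≤ Lk →
    ∀ L1 L2 : ℕ, 0 < L1 → L1 ≤ L2 → ∀ κ : ℝ, 0 < κ → ∃ c1 : ℝ, 0 ≤ c1 ∧ Suf σ ε fun g m B h =>
      ∀ s : St η x σ ε ρ g m B h, ∃ (err : ℕ → ℝ) (Sw : Finset ℕ) (cj : ℝ), 0 ≤ cj ∧ cj ≤ s.mm * CJ x ∧ (∀ j, 0 ≤ err j) ∧
        ∑ j ∈ range s.N, err j ≤ η / 400 * h ∧ (m : ℝ) * Sw.card ≤ κ * h ∧ s.WinK L1 L2 Lk c1 cj err Sw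

/-- **[H]** the heavy intervals -/
def RowH : Prop :=
  ∃ (cw : ℝ) (CH : ℕ → ℝ), 0 ≤ cw ∧ (∀ x, 0 ≤ CH x) ∧ Pre fun _ η x δh e3 σ ε ρ => Suf σ ε fun g m B h =>
    ∀ s : St η x σ ε ρ g m B h, ∃ (xo u : ℕ → ℝ) (T : Finset ℕ) (ch δ : ℝ), 0 ≤ ch ∧ 0 ≤ δ ∧ ch ≤ s.mm * CH x ∧ δ ≤ δh ∧
      (∀ j, 0 ≤ xo j) ∧ ∑ j ∈ range s.N, xo j ≤ η / 200 * h ∧ (∀ z, 0 ≤ u z) ∧ (∀ z, z ∉ T → u z = 0) ∧
      ∑ z ∈ T, u z ≤ e3 * h ∧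
      ∀ i i1, s.gd i → i < i1 → i1 ≤ s.N → s.r i < s.r i1 →
        s.mm * (1 - δ) * ((s.r i1 : ℝ) - s.r i) - s.mm * cw * ((s.a i1 : ℝ) - s.a i) -
          ∑ z ∈ Icc (s.a i) (s.a i + (s.r i1 - s.r i)), u z - ch - ∑ j ∈ Ico i i1, (s.qc j + xo j) ≤ s.psi i1 - s.psi i

/-- **[Q]** the price -/
def RowQ : Prop :=
  Pre fun _ η x _ _ σ ε ρ => Suf σ ε fun g m B h => ∀ s : St η x σ ε ρ g m B h,
    ∑ j ∈ range s.N, s.qc j ≤ η / 200 * h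

end Vale.Agent.P106.U.MIC
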