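import Vale.Agent.P106.U.MIC.PSat
import Vale.Agent.P106.U.H495.WndV
import Vale.Agent.P106.U.H931.Nxt

/-!
# P106 / U / MIC : combinatorics of one scale (helper679)

Kinds of levels `kd : ℕ → Fin 3` (0 old, 1 young in the kappa regime, 2 young in the deep phi regime), `Sw` = levels at which the
kind changes or something is exceptional, `Lk` = lookahead of a window in levels.  PURE window `[i, k)` of kind `c` : all levels
`z` with `a i ≤ z ≤ a k + Lk` are not in `Sw` and of kind `c`.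

* `thk Sw L` : levels with a level of `Sw` in `[z, z + L]`.
* `light_all` : the inequality of the light windows for all windows from the pure windows (kinds 0, 2 in the form of the
  summation, kind 1 in helper495's form for whole diagonal steps).
* `errS`, `errS_sum` : the error and its sum.
-/

set_option autoImplicit false

namespace Vale.Agent.P106.U.MIC

open Finset
open Vale.Agent.P106.U.H118 (Sdat CS full)
open Vale.Agent.P106.U.H495 (errC Lvl)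
open Vale.Agent.P106.U.H931 (nx lvi)

/-- levels with a level of `Sw` in `[z, z + L]` -/
def thk (Sw : Finset ℕ) (L : ℕ) : Finset ℕ := Sw.biUnion fun s => Icc (s - L) s

theorem thk_card (Sw : Finset ℕ) (L : ℕ) : (thk Sw L).card ≤ (L + 1) * Sw.card := by
  unfold thk
  refine (Finset.card_biUnion_le).trans ?_
  refine (Finset.sum_le_card_nsmul _ _ (L + 1) fun s _ => ?_).trans ?_
  · rw [Nat.card_Icc]
    omega
  · rw [smul_eq_mul, Nat.mul_comm]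

theorem not_thk {Sw : Finset ℕ} {L z w : ℕ} (h : z ∉ thk Sw L) (h1 : z ≤ w) (h2 : w ≤ z + L) : w ∉ Sw := by
  intro hw
  refine h (Finset.mem_biUnion.2 ⟨w, hw, Finset.mem_Icc.2 ⟨by omega, h1⟩⟩)

section

variable {n : ℕ} {g : ℕ → Prop} {a R : ℕ → ℕ}

/-- the error of a scale -/
noncomputable def errS (M n : ℕ) (g : ℕ → Prop) (a R : ℕ → ℕ) (Sw : Finset ℕ) (Lk L1 : ℕ) (m : ℝ) (err : Fin 3 → ℕ → ℝ)
    (j : ℕ) : ℝ := errC M n g a R (thk Sw Lk) L1 m (fun j => ∑ c, err c j) j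

theorem errS_nonneg {M : ℕ} {Sw : Finset ℕ} {Lk L1 : ℕ} {m : ℝ} (hm : 0 ≤ m) {err : Fin 3 → ℕ → ℝ}
    (herr : ∀ c j, 0 ≤ err c j) (j : ℕ) : 0 ≤ errS M n g a R Sw Lk L1 m err j :=
  H495.errC_nonneg hm (fun j => Finset.sum_nonneg fun c _ => herr c j) j

/-- **all windows from the pure windows** -/
theorem light_all {M L1 L2 KK Lk : ℕ} {m c1 cj : ℝ} (hm : 0 ≤ m) (hc1 : 0 ≤ c1) (hcj : 0 ≤ cj) (hL1 : 1 ≤ L1)
    (hKK : Lk + 1 ≤ KK)
    {ψ q : ℕ → ℝ} {err : Fin 3 → ℕ → ℝ} (herr : ∀ c j, 0 ≤ err c j) (D : Sdat n g a R) (g0 : g 0) {lm : ℕ → ℕ} (hl : Lvl n a lm)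
    (kd : ℕ → Fin 3) (Sw : Finset ℕ) (hkd : ∀ z, a 0 ≤ z → z < a n → kd z ≠ kd (z + 1) → z ∈ Sw)
    (hd : ∀ z, a 0 ≤ z → z + 1 < a n → kd z = 1 → R (lm (z + 1)) = R (lm z) + 1)
    (htr : ∀ i k, i ≤ k → k ≤ n → - c1 - ∑ j ∈ Ico i k, q j ≤ ψ k - ψ i)
    (h02 : ∀ c : Fin 3, c = 0 ∨ c = 2 → ∀ i k i1, i ≤ k → k ≤ i + L1 → k ≤ i1 → i1 ≤ n → i1 ≤ i + L2 → a k + KK ≤ a i1 →
      R k + KK ≤ R i1 → (∀ z, a i ≤ z → z ≤ a k + Lk → z ∉ Sw ∧ kd z = c) →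
      ∑ j ∈ CS M n g a R i k, (full m a R j - err c j) - c1 * ((k : ℝ) - i) - cj - ∑ j ∈ Ico i k, q j ≤ ψ k - ψ i)
    (h1 : ∀ i k i1, i ≤ k → k ≤ i + L1 → k ≤ i1 → i1 ≤ n → i1 ≤ i + L2 → a k + KK ≤ a i1 →
      R k + KK ≤ R i1 → (∀ z, a i ≤ z → z ≤ a k + Lk → z ∉ Sw ∧ kd z = 1) → a i < a k →
      ∑ z ∈ range (a k - 1 - a i), (4 * m - err 1 (lm (a i + z))) - c1 * ((a k - 1 - a i : ℕ) : ℝ) - cj -
        ∑ j ∈ Ico (lm (a i)) (lm (a k - 1)), q j ≤ ψ (lm (a k - 1)) - ψ (lm (a i))) :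
    ∀ i k i1, i ≤ k → k ≤ i + L1 → k ≤ i1 → i1 ≤ n → i1 ≤ i + L2 → a k + KK ≤ a i1 → R k + KK ≤ R i1 →
      ∑ j ∈ CS M n g a R i k, (full m a R j - errS M n g a R Sw Lk L1 m err j) - c1 * ((k : ℝ) - i) -
        (cj + 5 * m + 2 * c1) - ∑ j ∈ Ico i k, q j ≤ ψ k - ψ i := by
  classical
  intro i k i1 hik hkL hki hin hiL hak hRk
  have hkn : k ≤ n := hki.trans hin
  have herr' : ∀ j, 0 ≤ ∑ c, err c j := fun j => Finset.sum_nonneg fun c _ => herr c j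
  have hle : ∀ c j, err c j ≤ ∑ c, err c j := fun c j =>
    Finset.single_le_sum (f := fun c => err c j) (fun c _ => herr c j) (Finset.mem_univ c)
  have ham : a i1 ≤ a n := D.am hin le_rfl
  have hami := D.am hik hkn
  have ha0 := D.am (Nat.zero_le i) (hik.trans hkn)
  have hthk : ∀ z, z ∈ Sw → z ∈ thk Sw Lk := fun z hz =>
    Finset.mem_biUnion.2 ⟨z, hz, Finset.mem_Icc.2 ⟨Nat.sub_le _ _, le_rfl⟩⟩
  unfold errS
  refine H495.light_cut (cj := cj + 5 * m + 2 * c1) hm hc1 (by positivity) herr' D (thk Sw Lk) htr hik hkn hkL fun hpure => ?_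
  have hSw : ∀ z, a i ≤ z → z ≤ a k + Lk → z ∉ Sw := by
    intro z h1 h2
    rcases le_or_gt z (a k) with h3 | h3
    · exact not_thk (hpure z h1 h3) le_rfl (by omega)
    · exact not_thk (hpure (a k) hami le_rfl) h3.le h2
  have hconst : ∀ z, a i ≤ z → z ≤ a k + Lk → kd z = kd (a i) :=
    H495.kind_const kd (Sw := Sw) (z0 := a i) (z1 := a k + Lk)
      (fun z z1 z2 z3 => hkd z (by omega) (by omega) z3) hSw
  have hP : ∀ c, kd (a i) = c → ∀ z, a i ≤ z → z ≤ a k + Lk → z ∉ Sw ∧ kd z = c := fun c hc z h1 h2 =>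
    ⟨hSw z h1 h2, (hconst z h1 h2).trans hc⟩
  have hgen : ∀ c : Fin 3, c = 0 ∨ c = 2 → kd (a i) = c →
      ∑ j ∈ CS M n g a R i k, (full m a R j - errC M n g a R (thk Sw Lk) L1 m (fun j => ∑ c, err c j) j) -
        c1 * ((k : ℝ) - i) - (cj + 5 * m + 2 * c1) - ∑ j ∈ Ico i k, q j ≤ ψ k - ψ i := by
    intro c hc hk
    have e1 := h02 c hc i k i1 hik hkL hki hin hiL hak hRk (hP c hk)
    have e2 : ∑ j ∈ CS M n g a R i k, (full m a R j - errC M n g a R (thk Sw Lk) L1 m (fun j => ∑ c, err c j) j) ≤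
        ∑ j ∈ CS M n g a R i k, (full m a R j - err c j) :=
      Finset.sum_le_sum fun j _ => by
        have f1 := H495.errC_ge (M := M) (n := n) (g := g) (a := a) (R := R) (Sw := thk Sw Lk) (L := L1) hm
          (fun j => ∑ c, err c j) j
        have f2 := hle c j
        linarith
    linarith
  have hcase : kd (a i) = 0 ∨ kd (a i) = 1 ∨ kd (a i) = 2 := by
    generalize kd (a i) = x
    fin_cases x <;> simp
  rcases hcase with hc | hc | hc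
  · exact hgen 0 (Or.inl rfl) hc
  · refine H495.light_V (M := M) (L1 := L1) hm hc1 hcj hL1 herr' D g0 hl (fun z => kd z = 1) (thk Sw Lk)
      (fun z z1 z2 z3 z4 => hthk z (hkd z z1 (by omega) fun e => z4 (e.trans z3))) hd htr hik hkn (by omega)
      (fun z z1 z2 => (hP 1 hc z z1 (by omega)).2) fun h3 => ?_
    have e1 := h1 i k i1 hik hkL hki hin hiL hak hRk (hP 1 hc) h3
    have e2 : ∑ z ∈ range (a k - 1 - a i), (4 * m - ∑ c, err c (lm (a i + z))) ≤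
        ∑ z ∈ range (a k - 1 - a i), (4 * m - err 1 (lm (a i + z))) :=
      Finset.sum_le_sum fun z _ => by
        have := hle 1 (lm (a i + z))
        linarith
    linarith
  · exact hgen 2 (Or.inr rfl) hc

/-- **the sum of the errors** -/
theorem errS_sum {M L1 Lk : ℕ} {m : ℝ} (hm : 0 ≤ m) (err : Fin 3 → ℕ → ℝ) (D : Sdat n g a R) (Sw : Finset ℕ) :
    ∑ j ∈ range n, errS M n g a R Sw Lk L1 m err j ≤
      ∑ c, ∑ j ∈ range n, err c j + 3 * m * ((M + 1) * ((2 * L1 + 1) * ((Lk + 1) * Sw.card))) := by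
  unfold errS
  have e1 := H495.errC_sum (M := M) (L := L1) hm (fun j => ∑ c, err c j) D (thk Sw Lk)
  have e2 : ∑ j ∈ range n, ∑ c, err c j = ∑ c, ∑ j ∈ range n, err c j := Finset.sum_comm
  have e3 : ((thk Sw Lk).card : ℝ) ≤ (Lk + 1) * Sw.card := by exact_mod_cast thk_card Sw Lk
  have e4 : 3 * m * (((M : ℝ) + 1) * ((2 * L1 + 1) * (thk Sw Lk).card)) ≤
      3 * m * ((M + 1) * ((2 * L1 + 1) * ((Lk + 1) * Sw.card))) := by
    gcongr
  rw [e2] at e1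
  linarith

/-- **one scale from its pure windows, the trivial pieces, the heavy intervals and the sums** : `qc` = price of the light
windows and of the trivial pieces, `xo ≥ 0` = further price of the heavy intervals -/
theorem scaleOk_of {M M1 L1 L2 KK Lk : ℕ} {CJ CH cw c1 δh e3 eps h m cj ch δ : ℝ} (hm : 0 ≤ m) (hc1 : 0 ≤ c1) (hcj : 0 ≤ cj)
    (hch : 0 ≤ ch) (hδ0 : 0 ≤ δ) (hL1 : 1 ≤ L1) (hKK : Lk + 1 ≤ KK)
    (hcj1 : cj + 5 * m + 2 * c1 ≤ m * CJ) (hch1 : ch ≤ m * CH) (hδ1 : δ ≤ δh)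
    {ψ qc xo u : ℕ → ℝ} (hxo : ∀ j, 0 ≤ xo j) {T : Finset ℕ} (hu : ∀ z, 0 ≤ u z) (huT : ∀ z, z ∉ T → u z = 0)
    {err : Fin 3 → ℕ → ℝ} (herr : ∀ c j, 0 ≤ err c j) (D : Sdat n g a R) (g0 : g 0)
    {lm : ℕ → ℕ} (hl : Lvl n a lm)
    (kd : ℕ → Fin 3) (Sw : Finset ℕ) (hkd : ∀ z, a 0 ≤ z → z < a n → kd z ≠ kd (z + 1) → z ∈ Sw)
    (hd : ∀ z, a 0 ≤ z → z + 1 < a n → kd z = 1 → R (lm (z + 1)) = R (lm z) + 1)
    (htr : ∀ i k, i ≤ k → k ≤ n → - c1 - ∑ j ∈ Ico i k, qc j ≤ ψ k - ψ i)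
    (h02 : ∀ c : Fin 3, c = 0 ∨ c = 2 → ∀ i k i1, i ≤ k → k ≤ i + L1 → k ≤ i1 → i1 ≤ n → i1 ≤ i + L2 → a k + KK ≤ a i1 →
      R k + KK ≤ R i1 → (∀ z, a i ≤ z → z ≤ a k + Lk → z ∉ Sw ∧ kd z = c) →
      ∑ j ∈ CS M n g a R i k, (full m a R j - err c j) - c1 * ((k : ℝ) - i) - cj - ∑ j ∈ Ico i k, (qc j + xo j) ≤
        ψ k - ψ i)
    (h1 : ∀ i k i1, i ≤ k → k ≤ i + L1 → k ≤ i1 → i1 ≤ n → i1 ≤ i + L2 → a k + KK ≤ a i1 →
      R k + KK ≤ R i1 → (∀ z, a i ≤ z → z ≤ a k + Lk → z ∉ Sw ∧ kd z = 1) → a i < a k →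
      ∑ z ∈ range (a k - 1 - a i), (4 * m - err 1 (lm (a i + z))) - c1 * ((a k - 1 - a i : ℕ) : ℝ) - cj -
        ∑ j ∈ Ico (lm (a i)) (lm (a k - 1)), (qc j + xo j) ≤ ψ (lm (a k - 1)) - ψ (lm (a i)))
    (hH : ∀ i i1, g i → i < i1 → i1 ≤ n → R i + M1 < R i1 →
      m * (1 - δ) * ((R i1 : ℝ) - R i) - m * cw * ((a i1 : ℝ) - a i) - ∑ z ∈ Icc (a i) (a i + (R i1 - R i)), u z - ch -
        ∑ j ∈ Ico i i1, (qc j + xo j) ≤ ψ i1 - ψ i)
    (hse : ∑ c, ∑ j ∈ range n, err c j + 3 * m * ((M + 1) * ((2 * L1 + 1) * ((Lk + 1) * Sw.card))) ≤ eps / 16 * h)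
    (hsq : ∑ j ∈ range n, (qc j + xo j) ≤ eps / 16 * h) (hsu : ∑ z ∈ T, u z ≤ e3 * h) :
    ScaleOk M M1 L1 L2 KK CJ CH cw c1 δh e3 eps h m n g a R ψ (errS M n g a R Sw Lk L1 m err) (fun j => qc j + xo j) u T
      (cj + 5 * m + 2 * c1) ch δ := by
  have htr' : ∀ i k, i ≤ k → k ≤ n → - c1 - ∑ j ∈ Ico i k, (qc j + xo j) ≤ ψ k - ψ i := by
    intro i k h1 h2
    have h3 := htr i k h1 h2
    have h4 : 0 ≤ ∑ j ∈ Ico i k, xo j := Finset.sum_nonneg fun j _ => hxo j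
    rw [Finset.sum_add_distrib]
    linarith
  exact ⟨by positivity, hch, hδ0, hcj1, hch1, hδ1, fun j => errS_nonneg hm herr j, hu, huT,
    (errS_sum hm err D Sw).trans hse, hsq, hsu,
    light_all hm hc1 hcj hL1 hKK herr D g0 hl kd Sw hkd hd htr' h02 h1, htr', hH⟩

end

end Vale.Agent.P106.U.MIC
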