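import Vale.Agent.P106.U.MIC.Stage

/-!
# P106 / U / MIC : one scale from its rows (helper679)

* `scale_one` : at one situation `St`.
* **`pScale_of : RowT → RowKd → RowL 0 → RowK → RowL 2 → RowH → RowQ → PScale`**.
-/

set_option autoImplicit false

namespace Vale.Agent.P106.U.MIC

open Finset Vale.Agent.P127 Vale.Agent.P127.Stk Vale.Agent.P127.U Vale.Agent.P106.W Vale.Agent.P106.K
open Vale.Agent.P106.U.Cell (Pth)
open Vale.Agent.P106.U.S3 (Run)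
open Vale.Agent.P106.U.S5
open Vale.Agent.P106.U.H833 (aN RN tdg)
open Vale.Agent.P106.U.H101 (lc low)
open Vale.Agent.P106.U.H823
open Vale.Agent.P106.U.H118 (Sdat CS full Zw)
open Vale.Agent.P106.U.H495 (Lvl)
open Vale.Agent.P106.U.H931 (nx lvi)

section

variable {n : ℕ} {g : ℕ → Prop} {a R : ℕ → ℕ}

/-- the kinds, corrected on the exceptional levels -/
theorem kd_fix {lm : ℕ → ℕ} (kd : ℕ → Fin 3) (SK S : Finset ℕ) (h1 : SK ⊆ S) (h2 : ∀ z, z + 1 ∈ SK → z ∈ S)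
    (hk : ∀ z, a 0 ≤ z → z < a n → kd z ≠ kd (z + 1) → z ∈ SK)
    (hd : ∀ z, a 0 ≤ z → z + 1 < a n → kd z = 1 → z ∉ SK → R (lm (z + 1)) = R (lm z) + 1) :
    ∃ kd' : ℕ → Fin 3, (∀ z, a 0 ≤ z → z ∉ S → kd' z = kd z) ∧
      (∀ z, a 0 ≤ z → z < a n → kd' z ≠ kd' (z + 1) → z ∈ S) ∧
      (∀ z, a 0 ≤ z → z + 1 < a n → kd' z = 1 → R (lm (z + 1)) = R (lm z) + 1) := by
  classical
  have npr : ∀ z, a 0 ≤ z → z ∉ SK → ¬ (kd z = 1 ∧ z + 1 < a n ∧ ¬ R (lm (z + 1)) = R (lm z) + 1) :=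
    fun z hz h1 ⟨h2, h3, h4⟩ => h4 (hd z hz h3 h2 h1)
  refine ⟨fun z => if kd z = 1 ∧ z + 1 < a n ∧ ¬ R (lm (z + 1)) = R (lm z) + 1 then 0 else kd z, ?_, ?_, ?_⟩
  · intro z hz hzS
    exact if_neg (npr z hz fun h => hzS (h1 h))
  · intro z z1 z2 z3
    by_contra hz
    have e1 : z ∉ SK := fun h => hz (h1 h)
    have e2 : z + 1 ∉ SK := fun h => hz (h2 z h)
    simp only [if_neg (npr z z1 e1), if_neg (npr (z + 1) (by omega) e2)] at z3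
    exact e1 (hk z z1 z2 z3)
  · intro z z1 z2 z3
    by_contra hz
    by_cases h1 : kd z = 1
    · simp only [if_pos (show kd z = 1 ∧ z + 1 < a n ∧ ¬ R (lm (z + 1)) = R (lm z) + 1 from ⟨h1, z2, hz⟩)] at z3
      exact absurd z3 (by decide)
    · have h2 : ¬ (kd z = 1 ∧ z + 1 < a n ∧ ¬ R (lm (z + 1)) = R (lm z) + 1) := fun hh => h1 hh.1
      simp only [if_neg h2] at z3
      exact h1 z3

/-- size of the union of the exceptional sets -/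
theorem card_union5 (SK S0 S1 S2 : Finset ℕ) : ((SK ∪ (SK.image (fun z => z - 1) ∪ (S0 ∪ (S1 ∪ S2)))).card : ℝ) ≤
    2 * SK.card + S0.card + S1.card + S2.card := by
  have e1 : (SK ∪ (SK.image (fun z => z - 1) ∪ (S0 ∪ (S1 ∪ S2)))).card ≤
      SK.card + (SK.card + (S0.card + (S1.card + S2.card))) := by
    refine (Finset.card_union_le _ _).trans (Nat.add_le_add_left ?_ _)
    refine (Finset.card_union_le _ _).trans (Nat.add_le_add Finset.card_image_le ?_)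
    refine (Finset.card_union_le _ _).trans (Nat.add_le_add_left ?_ _)
    exact Finset.card_union_le _ _
  have e2 : ((SK ∪ (SK.image (fun z => z - 1) ∪ (S0 ∪ (S1 ∪ S2)))).card : ℝ) ≤
      SK.card + (SK.card + (S0.card + (S1.card + S2.card))) := by exact_mod_cast e1
  linarith

/-- **one scale from its rows**, abstract -/
theorem scaleOk_rows {x M1 L1 L2 Lk : ℕ} {CJ0 CJ1 CJ2 CH cw δh e3 η h mm c1 cT c10 c11 c12 κ : ℝ} (hη : 0 < η) (hh0 : 0 ≤ h)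
    (hmm0 : 0 ≤ mm) (hL1 : 0 < L1)
    (hcT : 0 ≤ cT) (hc10 : 0 ≤ c10) (hc11 : 0 ≤ c11) (hc12 : 0 ≤ c12) (hc1 : c1 = cT + c10 + c11 + c12)
    (hm2 : 2 * c1 ≤ mm) (hκ : 15 * κ * ((x + 1) * ((2 * L1 + 1) * (Lk + 1))) ≤ η / 400)
    {ψ qc : ℕ → ℝ} (D : Sdat n g a R) (g0 : g 0) {lm : ℕ → ℕ} (hl : Lvl n a lm) (kd : ℕ → Fin 3)
    (htr : ∀ i k, i ≤ k → k ≤ n → - cT - ∑ j ∈ Ico i k, qc j ≤ ψ k - ψ i)
    {SK S0 S1 S2 : Finset ℕ} (hSK : mm * SK.card ≤ κ * h) (hS0 : mm * S0.card ≤ κ * h) (hS1 : mm * S1.card ≤ κ * h)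
    (hS2 : mm * S2.card ≤ κ * h)
    (hk : ∀ z, a 0 ≤ z → z < a n → kd z ≠ kd (z + 1) → z ∈ SK)
    (hd : ∀ z, a 0 ≤ z → z + 1 < a n → kd z = 1 → z ∉ SK → R (lm (z + 1)) = R (lm z) + 1)
    {er0 er1 er2 : ℕ → ℝ} (he0 : ∀ j, 0 ≤ er0 j) (he1 : ∀ j, 0 ≤ er1 j) (he2 : ∀ j, 0 ≤ er2 j)
    (hse0 : ∑ j ∈ range n, er0 j ≤ η / 400 * h) (hse1 : ∑ j ∈ range n, er1 j ≤ η / 400 * h)
    (hse2 : ∑ j ∈ range n, er2 j ≤ η / 400 * h)
    {cj0 cj1 cj2 : ℝ} (hcj0 : 0 ≤ cj0) (hcj1 : 0 ≤ cj1) (hcj2 : 0 ≤ cj2) (hcj0' : cj0 ≤ mm * CJ0) (hcj1' : cj1 ≤ mm * CJ1)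
    (hcj2' : cj2 ≤ mm * CJ2)
    (hw : ∀ (c : Fin 3) (S : Finset ℕ) (er : ℕ → ℝ) (cc cj : ℝ), (c = 0 ∧ S = S0 ∧ er = er0 ∧ cc = c10 ∧ cj = cj0) ∨
      (c = 2 ∧ S = S2 ∧ er = er2 ∧ cc = c12 ∧ cj = cj2) →
      ∀ i k i1, i ≤ k → k ≤ i + L1 → k ≤ i1 → i1 ≤ n → i1 ≤ i + L2 → a k + (Lk + 1) ≤ a i1 → R k + (Lk + 1) ≤ R i1 →
        (∀ z, a i ≤ z → z ≤ a k + Lk → z ∉ S ∧ kd z = c) →
        ∑ j ∈ CS x n g a R i k, (full mm a R j - er j) - cc * ((k : ℝ) - i) - cj - ∑ j ∈ Ico i k, qc j ≤ ψ k - ψ i)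
    (hw1 : ∀ i k i1, i ≤ k → k ≤ i + L1 → k ≤ i1 → i1 ≤ n → i1 ≤ i + L2 → a k + (Lk + 1) ≤ a i1 →
      R k + (Lk + 1) ≤ R i1 → (∀ z, a i ≤ z → z ≤ a k + Lk → z ∉ S1 ∧ kd z = 1) → a i < a k →
      ∑ z ∈ range (a k - 1 - a i), (4 * mm - er1 (lm (a i + z))) - c11 * ((a k - 1 - a i : ℕ) : ℝ) - cj1 -
        ∑ j ∈ Ico (lm (a i)) (lm (a k - 1)), qc j ≤ ψ (lm (a k - 1)) - ψ (lm (a i)))
    {xo u : ℕ → ℝ} {T : Finset ℕ} {ch δ : ℝ} (hch : 0 ≤ ch) (hδ : 0 ≤ δ) (hch1 : ch ≤ mm * CH) (hδ1 : δ ≤ δh)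
    (hxo : ∀ j, 0 ≤ xo j) (hsxo : ∑ j ∈ range n, xo j ≤ η / 200 * h) (hu : ∀ z, 0 ≤ u z) (huT : ∀ z, z ∉ T → u z = 0)
    (hsu : ∑ z ∈ T, u z ≤ e3 * h)
    (hheavy : ∀ i i1, g i → i < i1 → i1 ≤ n → R i < R i1 →
        mm * (1 - δ) * ((R i1 : ℝ) - R i) - mm * cw * ((a i1 : ℝ) - a i) -
          ∑ z ∈ Icc (a i) (a i + (R i1 - R i)), u z - ch - ∑ j ∈ Ico i i1, (qc j + xo j) ≤ ψ i1 - ψ i)
    (hQ : ∑ j ∈ range n, qc j ≤ η / 200 * h) :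
    ∃ (err qq : ℕ → ℝ) (cj : ℝ),
      ScaleOk x M1 L1 L2 (Lk + 1) (CJ0 + CJ1 + CJ2 + 6) CH cw c1 δh e3 (η / 4) h mm n g a R ψ err qq u T cj ch δ := by
  obtain ⟨kd', f1, f2, f3⟩ := kd_fix (n := n) (R := R) (a := a) (lm := lm) kd SK
    (SK ∪ (SK.image (fun z => z - 1) ∪ (S0 ∪ (S1 ∪ S2)))) Finset.subset_union_left
    (fun z h1 => Finset.mem_union_right _ (Finset.mem_union_left _ (Finset.mem_image.2 ⟨z + 1, h1, by simp⟩))) hk hd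
  have m0 : ∀ z, z ∉ (SK ∪ (SK.image (fun z => z - 1) ∪ (S0 ∪ (S1 ∪ S2)))) → z ∉ S0 := fun z hz h1 => hz
    (Finset.mem_union_right _ (Finset.mem_union_right _ (Finset.mem_union_left _ h1)))
  have m1 : ∀ z, z ∉ (SK ∪ (SK.image (fun z => z - 1) ∪ (S0 ∪ (S1 ∪ S2)))) → z ∉ S1 := fun z hz h1 => hz
    (Finset.mem_union_right _ (Finset.mem_union_right _ (Finset.mem_union_right _ (Finset.mem_union_left _ h1))))
  have m2 : ∀ z, z ∉ (SK ∪ (SK.image (fun z => z - 1) ∪ (S0 ∪ (S1 ∪ S2)))) → z ∉ S2 := fun z hz h1 => hz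
    (Finset.mem_union_right _ (Finset.mem_union_right _ (Finset.mem_union_right _ (Finset.mem_union_right _ h1))))
  have hcard := card_union5 SK S0 S1 S2
  generalize (SK ∪ (SK.image (fun z => z - 1) ∪ (S0 ∪ (S1 ∪ S2)))) = Sw at f1 f2 m0 m1 m2 hcard
  have a0 : ∀ i, i ≤ n → a 0 ≤ a i := fun i hi => D.am (Nat.zero_le i) hi
  have hmmc : mm * Sw.card ≤ 5 * (κ * h) := by
    have e1 := mul_le_mul_of_nonneg_left hcard hmm0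
    have e2 : mm * (2 * SK.card + S0.card + S1.card + S2.card) = 2 * (mm * SK.card) + mm * S0.card + mm * S1.card +
      mm * S2.card := by ring
    linarith
  have hsw : 3 * mm * (((x : ℝ) + 1) * ((2 * L1 + 1) * ((Lk + 1) * Sw.card))) ≤ η / 400 * h := by
    have e1 : 3 * mm * (((x : ℝ) + 1) * ((2 * L1 + 1) * ((Lk + 1) * Sw.card))) =
        3 * (((x : ℝ) + 1) * ((2 * L1 + 1) * (Lk + 1))) * (mm * Sw.card) := by ring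
    rw [e1]
    have e2 : 3 * (((x : ℝ) + 1) * ((2 * L1 + 1) * (Lk + 1))) * (mm * Sw.card) ≤
        3 * (((x : ℝ) + 1) * ((2 * L1 + 1) * (Lk + 1))) * (5 * (κ * h)) :=
      mul_le_mul_of_nonneg_left hmmc (by positivity)
    have e3 : 3 * (((x : ℝ) + 1) * ((2 * L1 + 1) * (Lk + 1))) * (5 * (κ * h)) =
        15 * κ * ((x + 1) * ((2 * L1 + 1) * (Lk + 1))) * h := by ring
    have e4 := mul_le_mul_of_nonneg_right hκ hh0
    linarith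
  have herr0 : ∀ c j, 0 ≤ (![er0, er1, er2] : Fin 3 → ℕ → ℝ) c j := by
    intro c j
    fin_cases c
    · exact he0 j
    · exact he1 j
    · exact he2 j
  have hsum : ∑ c, ∑ j ∈ range n, (![er0, er1, er2] : Fin 3 → ℕ → ℝ) c j ≤ 3 * (η / 400 * h) := by
    rw [Fin.sum_univ_three]
    show ∑ j ∈ range n, er0 j + ∑ j ∈ range n, er1 j + ∑ j ∈ range n, er2 j ≤ _
    linarith
  have hkn : ∀ (i k : ℕ), i ≤ k → (0 : ℝ) ≤ (k : ℝ) - i := fun i k hik => by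
    have : (i : ℝ) ≤ k := by exact_mod_cast hik
    linarith
  have qle : ∀ i k, ∑ j ∈ Ico i k, qc j ≤ ∑ j ∈ Ico i k, (qc j + xo j) := fun i k =>
    Finset.sum_le_sum fun j _ => by
      have := hxo j
      linarith
  have hc1' : 0 ≤ c1 := by rw [hc1]; positivity
  have hηh : 0 ≤ η * h := by positivity
  have l0 : c10 ≤ c1 := by linarith
  have l1 : c11 ≤ c1 := by linarith
  have l2 : c12 ≤ c1 := by linarith
  have lT : cT ≤ c1 := by linarith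
  refine ⟨_, _, _, scaleOk_of (M := x) (M1 := M1) (L1 := L1) (L2 := L2) (KK := Lk + 1) (Lk := Lk)
    (cj := cj0 + cj1 + cj2) (ψ := ψ) (qc := qc) (xo := xo) (err := ![er0, er1, er2]) hmm0 hc1' (by positivity) hch hδ hL1 le_rfl
    ?_ hch1 hδ1 hxo hu huT herr0 D g0 hl kd' Sw f2 f3 ?_ ?_ ?_ ?_ ?_ ?_ hsu⟩
  · have e1 : mm * (CJ0 + CJ1 + CJ2 + 6) = mm * CJ0 + mm * CJ1 + mm * CJ2 + 6 * mm := by ring
    rw [e1]
    linarith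
  · intro i k h1 h2
    have := htr i k h1 h2
    linarith
  · rintro c (rfl | rfl) i k i1 h1 h2 h3 h4 h5 h6 h7 h8
    · have e1 := hw 0 S0 er0 c10 cj0 (Or.inl ⟨rfl, rfl, rfl, rfl, rfl⟩) i k i1 h1 h2 h3 h4 h5 h6 h7 fun z z1 z2 => by
        obtain ⟨z3, z4⟩ := h8 z z1 z2
        exact ⟨m0 z z3, (f1 z ((a0 i (by omega)).trans z1) z3) ▸ z4⟩
      have e2 := qle i k
      have e4 : c10 * ((k : ℝ) - i) ≤ c1 * ((k : ℝ) - i) := mul_le_mul_of_nonneg_right l0 (hkn i k h1)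
      show ∑ j ∈ CS x n g a R i k, (full mm a R j - er0 j) - _ - _ - _ ≤ _
      linarith
    · have e1 := hw 2 S2 er2 c12 cj2 (Or.inr ⟨rfl, rfl, rfl, rfl, rfl⟩) i k i1 h1 h2 h3 h4 h5 h6 h7 fun z z1 z2 => by
        obtain ⟨z3, z4⟩ := h8 z z1 z2
        exact ⟨m2 z z3, (f1 z ((a0 i (by omega)).trans z1) z3) ▸ z4⟩
      have e2 := qle i k
      have e4 : c12 * ((k : ℝ) - i) ≤ c1 * ((k : ℝ) - i) := mul_le_mul_of_nonneg_right l2 (hkn i k h1)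
      show ∑ j ∈ CS x n g a R i k, (full mm a R j - er2 j) - _ - _ - _ ≤ _
      linarith
  · intro i k i1 h1 h2 h3 h4 h5 h6 h7 h8 h9
    have e1 := hw1 i k i1 h1 h2 h3 h4 h5 h6 h7 (fun z z1 z2 => by
      obtain ⟨z3, z4⟩ := h8 z z1 z2
      exact ⟨m1 z z3, (f1 z ((a0 i (by omega)).trans z1) z3) ▸ z4⟩) h9
    have e2 := qle (lm (a i)) (lm (a k - 1))
    have e3 : (0 : ℝ) ≤ ((a k - 1 - a i : ℕ) : ℝ) := Nat.cast_nonneg _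
    have e4 : c11 * ((a k - 1 - a i : ℕ) : ℝ) ≤ c1 * ((a k - 1 - a i : ℕ) : ℝ) := mul_le_mul_of_nonneg_right l1 e3
    show ∑ z ∈ range (a k - 1 - a i), (4 * mm - er1 (lm (a i + z))) - _ - _ - _ ≤ _
    linarith
  · intro i i1 h1 h2 h3 h4
    exact hheavy i i1 h1 h2 h3 (by omega)
  · have e1 : 3 * (η / 400 * h) + η / 400 * h ≤ η / 4 / 16 * h := by
      linarith
    linarith
  · rw [Finset.sum_add_distrib]
    linarith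

end

/-- **one scale from its rows** -/
theorem pScale_of (rT : RowT) (rKd : RowKd) (r0 : RowL 0) (rK : RowK) (r2 : RowL 2) (rH : RowH) (rQ : RowQ) : PScale := by
  obtain ⟨CJ0, hCJ0, R0⟩ := r0
  obtain ⟨CJ1, hCJ1, R1⟩ := rK
  obtain ⟨CJ2, hCJ2, R2⟩ := r2
  obtain ⟨cw, CH, hcw, hCH, RH⟩ := rH
  refine ⟨cw, fun x => CJ0 x + CJ1 x + CJ2 x + 6, CH, hcw, fun x => ?_, hCH, ?_⟩
  · have e1 := hCJ0 x
    have e2 := hCJ1 x
    have e3 := hCJ2 x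
    positivity
  intro b hb η hη x δh e3 hx hδh he3
  have A := Pre.and rT (Pre.and rKd (Pre.and R0 (Pre.and R1 (Pre.and R2 (Pre.and RH rQ)))))
  obtain ⟨θ0, hθ0, A⟩ := A b hb η hη x δh e3 hx hδh he3
  refine ⟨θ0, hθ0, fun θ hθ hθ' => ?_⟩
  obtain ⟨δ0, hδ0, A⟩ := A θ hθ hθ'
  refine ⟨δ0, hδ0, fun δ1 hδ1 hδ1' σ hσ hσo => ?_⟩
  obtain ⟨ε0, hε0, A⟩ := A δ1 hδ1 hδ1' σ hσ hσo
  refine ⟨ε0, hε0, fun ε hε hε' ρ hρ => ?_⟩
  obtain ⟨⟨cT, hcT, AT⟩, AKd, ⟨k0, A0⟩, ⟨k1, A1⟩, ⟨k2, A2⟩, AH, AQ⟩ := A ε hε hε' ρ hρ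
  obtain ⟨Lk, hk0, hk1, hk2⟩ : ∃ Lk, k0 ≤ Lk ∧ k1 ≤ Lk ∧ k2 ≤ Lk := ⟨k0 + k1 + k2, by omega, by omega, by omega⟩
  refine ⟨Lk + 1, fun L1 L2 hL1 hL12 => ?_⟩
  obtain ⟨κ, hκ0, hκ⟩ : ∃ κ : ℝ, 0 < κ ∧ 15 * κ * (((x : ℝ) + 1) * ((2 * L1 + 1) * (Lk + 1))) ≤ η / 400 := by
    have hp : 0 < ((x : ℝ) + 1) * ((2 * L1 + 1) * (Lk + 1)) := by positivity
    refine ⟨η / 400 / (15 * (((x : ℝ) + 1) * ((2 * L1 + 1) * (Lk + 1)))), by positivity, le_of_eq ?_⟩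
    field_simp
  obtain ⟨c10, hc10, A0⟩ := A0 Lk hk0 L1 L2 hL1 hL12 κ hκ0
  obtain ⟨c11, hc11, A1⟩ := A1 Lk hk1 L1 L2 hL1 hL12 κ hκ0
  obtain ⟨c12, hc12, A2⟩ := A2 Lk hk2 L1 L2 hL1 hL12 κ hκ0
  refine ⟨cT + c10 + c11 + c12, by positivity, fun g hg => ?_⟩
  have S := Suf.and AT (Suf.and (AKd κ hκ0) (Suf.and A0 (Suf.and A1 (Suf.and A2 (Suf.and AH AQ)))))
  obtain ⟨m0, S⟩ := S g hg
  have hl2 : 0 < Real.log 2 := Real.log_pos (by norm_num)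
  refine ⟨max (max m0 1) ⌈2 * (cT + c10 + c11 + c12) / Real.log 2⌉₊, fun m hm => ?_⟩
  have hm0 : m0 ≤ m := ((le_max_left _ _).trans (le_max_left _ _)).trans hm
  have hm1 : 1 ≤ m := ((le_max_right _ _).trans (le_max_left _ _)).trans hm
  have hm2 : 2 * (cT + c10 + c11 + c12) ≤ m * Real.log 2 := by
    have h3 : 2 * (cT + c10 + c11 + c12) / Real.log 2 ≤ m :=
      (Nat.le_ceil _).trans (by exact_mod_cast (le_max_right _ _).trans hm)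
    rwa [div_le_iff₀ hl2] at h3
  obtain ⟨B0, S⟩ := S m hm0
  refine ⟨max B0 (max (μS x m) ⌈KS ρ⌉₊), fun B hB => ?_⟩
  have hB0 : B0 ≤ B := (le_max_left _ _).trans hB
  have hB1 : μS x m ≤ B := ((le_max_left _ _).trans (le_max_right _ _)).trans hB
  have hB2 : KS ρ ≤ B := (Nat.le_ceil _).trans (by exact_mod_cast ((le_max_right _ _).trans (le_max_right _ _)).trans hB)
  obtain ⟨h0, S⟩ := S B hB0
  refine ⟨h0, ?_⟩
  intro Ω _ Q l t L h q r0 Rn W hh hne τ υ R pn g' gU e κ₀ a1 r1 hR i0 E ha0 hi0 hw M1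
  have hμm : m ≤ μS x m := by
    unfold μS cμ xS
    have h2 : 1 ≤ 8000 * cN * (x + 12) := by
      have : 800 ≤ cN := le_max_left _ _
      have h3 : 1 ≤ 8000 * cN := by omega
      exact Nat.one_le_iff_ne_zero.2 (by positivity)
    calc m = 1 * m := (one_mul m).symm
      _ ≤ _ := Nat.mul_le_mul_right _ h2
  obtain ⟨π, bS, bV, F, Vs, Xs, hF⟩ := hR.f2
  obtain ⟨o, o', hs⟩ := hF.sum (μS x m) hB1 (by rw [hR.hm]; exact hμm) (KS ρ) le_rfl hB2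
  have hw' : WordOk (2 * σ.K1 + 4) (20 * ε) h (m * Real.log 2) ρ.J (nz R i0) (gdR R pn (eG ε ρ) i0) (az R i0) (rz R i0) E := by
    rw [hσ]
    exact hw
  let s : St η x σ ε ρ g m B h := ⟨Ω, inferInstance, Q, l, t, L, q, r0, Rn, W, hne, τ, υ, R, pn, g', gU, e, κ₀, a1, r1, hR, i0, E,
    ha0, hi0, hw', π, bS, bV, F, Vs, Xs, hF, o, o', hs⟩
  obtain ⟨⟨t1, t2, t3⟩, ⟨SK, k1', k2', k3'⟩, w0, w1, w2, wH, wQ⟩ := S h hh |>.imp (fun F => F s) fun S => S.imp (fun F => F s)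
    fun S => S.imp (fun F => F s) fun S => S.imp (fun F => F s) fun S => S.imp (fun F => F s) fun S => S.imp (fun F => F s)
      fun F => F s
  obtain ⟨er0, S0, cj0, hcj0, hcj0', he0, hse0, hS0, hw0⟩ := w0
  obtain ⟨er1, S1, cj1, hcj1, hcj1', he1, hse1, hS1, hw1⟩ := w1
  obtain ⟨er2, S2, cj2, hcj2, hcj2', he2, hse2, hS2, hw2⟩ := w2
  obtain ⟨xo, u, T, ch, δ, hch, hδ, hch1, hδ1, hxo, hsxo, hu, huT, hsu, hheavy⟩ := wH
  have hmm : s.mm = (m : ℝ) * Real.log 2 := by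
    show (R.m : ℝ) * Real.log 2 = _
    rw [hR.hm]
  have hl1 : Real.log 2 ≤ 1 := by
    have := Real.log_two_lt_d9
    linarith
  have hmmr : s.mm ≤ m := by
    rw [hmm]
    have : (0 : ℝ) ≤ m := Nat.cast_nonneg m
    nlinarith
  have hmm0 : 0 ≤ s.mm := by
    rw [hmm]
    positivity
  have hcc : ∀ S : Finset ℕ, (m : ℝ) * S.card ≤ κ * h → s.mm * S.card ≤ κ * h := fun S hS =>
    le_trans (mul_le_mul_of_nonneg_right hmmr (Nat.cast_nonneg _)) hS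
  obtain ⟨err, qq, cj, key⟩ := scaleOk_rows (n := s.N) (g := s.gd) (a := s.a) (R := s.r) (x := x) (M1 := M1) (L1 := L1) (L2 := L2)
    (Lk := Lk) (CJ0 := CJ0 x) (CJ1 := CJ1 x) (CJ2 := CJ2 x) (CH := CH x) (cw := cw) (δh := δh) (e3 := e3) (η := η) (h := h)
    (mm := s.mm) (c1 := cT + c10 + c11 + c12) (cT := cT) (c10 := c10) (c11 := c11) (c12 := c12) (κ := κ) hη (Nat.cast_nonneg h)
    hmm0 hL1 hcT hc10 hc11 hc12 rfl (by rw [hmm]; exact hm2) hκ (ψ := s.psi) (qc := s.qc) s.word.sd s.word.g0 (lm := s.lm) t1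
    s.kd t2 (hcc SK k1') (hcc S0 hS0) (hcc S1 hS1) (hcc S2 hS2) k2' k3' he0 he1 he2 hse0 hse1 hse2 hcj0 hcj1 hcj2 hcj0' hcj1'
    hcj2' (by
      rintro c S er cc cj (⟨rfl, rfl, rfl, rfl, rfl⟩ | ⟨rfl, rfl, rfl, rfl, rfl⟩)
      · exact hw0
      · exact hw2) hw1 hch hδ hch1 hδ1 hxo hsxo hu huT hsu hheavy wQ
  rw [hmm] at key
  refine ⟨μS x m, o, s.psi, err, qq, u, T, cj, ch, δ, ⟨?_, hs.o1.1⟩, key, t3⟩
  rw [hR.hμ]
  exact hB1.trans (Nat.le_mul_of_pos_left _ (by omega))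

end Vale.Agent.P106.U.MIC
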