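import Vale.Agent.P106.U.MIC.Asm
import Vale.Agent.P106.U.H812.RowT
import Vale.Agent.P106.U.H404.RowKd
import Vale.Agent.P106.U.H315.RowL0
import Vale.Agent.P106.U.H205.RowQ
import Vale.Agent.P106.U.H495.RowK
import Vale.Agent.P106.U.H425.RowL2T
import Vale.Agent.P106.U.H459.RowHF

/-!
# P106 / U / MIC : one scale (helper679)

**`pScale : PScale`** from the seven rows of `Stage.lean` (helpers 812, 404, 315, 495, 683, 425, 416, 958, 786, 459, 118, 543,
357, 471, 205).
-/

set_option autoImplicit false

namespace Vale.Agent.P106.U.MIC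

/-- `PScale` from the rows `RowK`, `RowL 2`, `RowH` -/
theorem pScale_of3 (rK : RowK) (r2 : RowL 2) (rH : RowH) : PScale :=
  pScale_of H812.row_T H404.rowKd H315.rowL0 rK r2 rH H205.RowQ.rowQ

/-- **one scale of the saturation** -/
theorem pScale : PScale := pScale_of3 H495.rowK_st H425.row_L2 H459.row_h

end Vale.Agent.P106.U.MIC
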